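import Mathlib

/-!
# P330, block GRP, part J: the module `J` of the group `J ⋊ SL₃(K)`

`Mon d`: exponents of the monomials of degree `d` in three variables.  `nu d u`: the vector of the
values of these monomials at `u` (Veronese vector).  `act g`: the linear action of matrices on
`Mon d → K` with `act g (nu d u) = nu d (g u)`; it is dual to the substitution `sub g` of
homogeneous polynomials, with respect to the pairing `pr`.

`JJ K d`: the product of the spaces `Mon (d i) → K`, with the action of `SL₃(K)`.
-/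

namespace Vale.Agent.P330.H675

open MvPolynomial Finset

/-- exponents of the monomials of degree `d` in three variables -/
abbrev Mon (d : ℕ) : Type := {m : Fin 3 → ℕ // m 0 + m 1 + m 2 = d}

instance (d : ℕ) : Fintype (Mon d) :=
  Fintype.subtype (Finset.Nat.antidiagonalTuple 3 d) (by
    intro m
    simp [Finset.Nat.mem_antidiagonalTuple, Fin.sum_univ_three])

/-- the exponent as a finitely supported function -/
noncomputable def toF (m : Fin 3 → ℕ) : Fin 3 →₀ ℕ := Finsupp.equivFunOnFinite.symm m

theorem toF_apply (m : Fin 3 → ℕ) (i : Fin 3) : toF m i = m i := rfl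

theorem toF_inj {m m' : Fin 3 → ℕ} (h : toF m = toF m') : m = m' :=
  Finsupp.equivFunOnFinite.symm.injective h

theorem exists_toF (n : Fin 3 →₀ ℕ) : toF n = n := by
  ext i; rfl

variable {K : Type*} [Field K]

/-- the monomial with the exponent `m` -/
noncomputable def mono (K : Type*) [Field K] (m : Fin 3 → ℕ) : MvPolynomial (Fin 3) K :=
  monomial (toF m) 1

theorem mono_eq (m : Fin 3 → ℕ) : mono K m = ∏ i, X i ^ m i := by
  unfold mono
  rw [monomial_eq, Finsupp.prod_fintype]
  · simp [toF_apply]
  · intro i; simp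

theorem mono_homog (m : Fin 3 → ℕ) : (mono K m).IsHomogeneous (m 0 + m 1 + m 2) := by
  unfold mono
  apply isHomogeneous_monomial
  rw [Finsupp.degree_eq_sum]
  simp [Fin.sum_univ_three, toF_apply]

theorem mono_homog' {d : ℕ} (m : Mon d) : (mono K m.1).IsHomogeneous d := by
  have := mono_homog (K := K) m.1
  rwa [m.2] at this

/-- the pairing of polynomials with vectors -/
noncomputable def pr {d : ℕ} (p : MvPolynomial (Fin 3) K) (w : Mon d → K) : K :=
  ∑ m : Mon d, coeff (toF m.1) p * w m

theorem pr_add_left {d : ℕ} (p q : MvPolynomial (Fin 3) K) (w : Mon d → K) :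
    pr (p + q) w = pr p w + pr q w := by
  simp [pr, add_mul, sum_add_distrib]

theorem pr_smul_left {d : ℕ} (c : K) (p : MvPolynomial (Fin 3) K) (w : Mon d → K) :
    pr (c • p) w = c * pr p w := by
  simp [pr, Finset.mul_sum, mul_assoc]

theorem pr_sum_left {d : ℕ} {ι : Type*} (s : Finset ι) (p : ι → MvPolynomial (Fin 3) K)
    (w : Mon d → K) : pr (∑ i ∈ s, p i) w = ∑ i ∈ s, pr (p i) w := by
  simp only [pr, coeff_sum, Finset.sum_mul]
  rw [Finset.sum_comm]

theorem pr_add_right {d : ℕ} (p : MvPolynomial (Fin 3) K) (w w' : Mon d → K) :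
    pr p (w + w') = pr p w + pr p w' := by
  simp [pr, mul_add, sum_add_distrib]

theorem pr_zero_right {d : ℕ} (p : MvPolynomial (Fin 3) K) : pr p (0 : Mon d → K) = 0 := by
  simp [pr]

theorem pr_smul_right {d : ℕ} (c : K) (p : MvPolynomial (Fin 3) K) (w : Mon d → K) :
    pr p (c • w) = c * pr p w := by
  simp only [pr, Finset.mul_sum, Pi.smul_apply, smul_eq_mul]
  exact Finset.sum_congr rfl fun m _ => by ring

theorem pr_mono {d : ℕ} (m : Mon d) (w : Mon d → K) : pr (mono K m.1) w = w m := by
  classical
  unfold pr mono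
  rw [Finset.sum_eq_single m]
  · simp
  · intro b _ hb
    rw [coeff_monomial, if_neg, zero_mul]
    intro h
    exact hb (Subtype.ext (toF_inj h).symm)
  · intro h
    exact absurd (mem_univ m) h

/-- A homogeneous polynomial of degree `d` is the sum of its monomials. -/
theorem homog_eq_sum {d : ℕ} {p : MvPolynomial (Fin 3) K} (hp : p.IsHomogeneous d) :
    p = ∑ m : Mon d, coeff (toF m.1) p • mono K m.1 := by
  classical
  ext n
  rw [coeff_sum]
  simp only [coeff_smul, mono, coeff_monomial, smul_eq_mul, mul_ite, mul_one, mul_zero]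
  by_cases hn : n 0 + n 1 + n 2 = d
  · rw [Finset.sum_eq_single ⟨n, hn⟩]
    · simp [exists_toF]
    · intro b _ hb
      rw [if_neg]
      intro h
      apply hb
      apply Subtype.ext
      show b.1 = ⇑n
      rw [← h]
      rfl
    · intro h
      exact absurd (mem_univ _) h
  · have h0 : coeff n p = 0 := by
      by_contra h
      apply hn
      have := hp h
      rw [← this, Finsupp.weight_apply, Finsupp.sum_fintype]
      · simp [Fin.sum_univ_three]
      · intro i; simp
    rw [h0]
    symm
    apply Finset.sum_eq_zero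
    intro b _
    rw [if_neg]
    intro h
    apply hn
    rw [← h]
    exact b.2

/-- substitution: `X i ↦ ∑ j, g i j * X j` -/
noncomputable def sub (g : Matrix (Fin 3) (Fin 3) K) :
    MvPolynomial (Fin 3) K →ₐ[K] MvPolynomial (Fin 3) K :=
  aeval fun i => ∑ j, C (g i j) * X j

theorem sub_X (g : Matrix (Fin 3) (Fin 3) K) (i : Fin 3) :
    sub g (X i) = ∑ j, C (g i j) * X j := by
  simp [sub]

theorem sub_homog {d : ℕ} {p : MvPolynomial (Fin 3) K} (hp : p.IsHomogeneous d)
    (g : Matrix (Fin 3) (Fin 3) K) : (sub g p).IsHomogeneous d := by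
  have h := hp.aeval (S := K) (fun i => ∑ j, C (g i j) * X j) (n := 1) (fun i => by
    apply IsHomogeneous.sum
    intro j _
    have := (isHomogeneous_C (Fin 3) (g i j)).mul (isHomogeneous_X K j)
    simpa using this)
  simpa [sub] using h

theorem sub_sub (g h : Matrix (Fin 3) (Fin 3) K) (p : MvPolynomial (Fin 3) K) :
    sub h (sub g p) = sub (g * h) p := by
  have e : (sub h).comp (sub g) = sub (g * h) := by
    apply MvPolynomial.algHom_ext
    intro i
    rw [AlgHom.comp_apply, sub_X, sub_X, map_sum]
    simp only [map_mul, sub_X, ← MvPolynomial.algebraMap_eq, AlgHom.commutes]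
    simp only [Finset.mul_sum, Matrix.mul_apply, map_sum, Finset.sum_mul, map_mul]
    rw [Finset.sum_comm]
    exact Finset.sum_congr rfl fun j _ => Finset.sum_congr rfl fun k _ => by ring
  exact DFunLike.congr_fun e p

theorem sub_one (p : MvPolynomial (Fin 3) K) : sub 1 p = p := by
  have e : sub (1 : Matrix (Fin 3) (Fin 3) K) = AlgHom.id K _ := by
    apply MvPolynomial.algHom_ext
    intro i
    rw [sub_X, AlgHom.id_apply]
    simp [Matrix.one_apply]
  rw [e]
  rfl

theorem eval_sub (g : Matrix (Fin 3) (Fin 3) K) (u : Fin 3 → K) (p : MvPolynomial (Fin 3) K) :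
    eval u (sub g p) = eval (g.mulVec u) p := by
  have e : (MvPolynomial.aeval u : MvPolynomial (Fin 3) K →ₐ[K] K).comp (sub g) =
      MvPolynomial.aeval (g.mulVec u) := by
    apply MvPolynomial.algHom_ext
    intro i
    rw [AlgHom.comp_apply, sub_X]
    simp [Matrix.mulVec, dotProduct]
  have := DFunLike.congr_fun e p
  simpa [AlgHom.comp_apply, MvPolynomial.coe_aeval_eq_eval] using this

/-- the Veronese vector -/
def nu (d : ℕ) (u : Fin 3 → K) : Mon d → K := fun m => ∏ i, u i ^ m.1 i

theorem pr_nu {d : ℕ} {p : MvPolynomial (Fin 3) K} (hp : p.IsHomogeneous d) (u : Fin 3 → K) :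
    pr p (nu d u) = eval u p := by
  conv_rhs => rw [homog_eq_sum hp]
  rw [map_sum]
  unfold pr
  apply Finset.sum_congr rfl
  intro m _
  rw [smul_eval, mono_eq]
  simp [nu]

/-- the action of matrices on `Mon d → K` -/
noncomputable def act {d : ℕ} (g : Matrix (Fin 3) (Fin 3) K) (w : Mon d → K) : Mon d → K :=
  fun m => pr (sub g (mono K m.1)) w

/-- The action is dual to the substitution. -/
theorem pr_act {d : ℕ} {p : MvPolynomial (Fin 3) K} (hp : p.IsHomogeneous d)
    (g : Matrix (Fin 3) (Fin 3) K) (w : Mon d → K) : pr p (act g w) = pr (sub g p) w := by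
  conv_rhs => rw [homog_eq_sum hp, map_sum, pr_sum_left]
  simp only [map_smul, pr_smul_left]
  rfl

theorem act_mul {d : ℕ} (g h : Matrix (Fin 3) (Fin 3) K) (w : Mon d → K) :
    act (g * h) w = act g (act h w) := by
  funext m
  show pr (sub (g * h) (mono K m.1)) w = pr (sub g (mono K m.1)) (act h w)
  rw [pr_act (sub_homog (mono_homog' m) g), sub_sub]

theorem act_one {d : ℕ} (w : Mon d → K) : act 1 w = w := by
  funext m
  show pr (sub 1 (mono K m.1)) w = w m
  rw [sub_one, pr_mono]

theorem act_add {d : ℕ} (g : Matrix (Fin 3) (Fin 3) K) (w w' : Mon d → K) :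
    act g (w + w') = act g w + act g w' := by
  funext m
  exact pr_add_right _ _ _

theorem act_zero {d : ℕ} (g : Matrix (Fin 3) (Fin 3) K) : act g (0 : Mon d → K) = 0 := by
  funext m
  exact pr_zero_right _

theorem act_smul {d : ℕ} (g : Matrix (Fin 3) (Fin 3) K) (c : K) (w : Mon d → K) :
    act g (c • w) = c • act g w := by
  funext m
  exact pr_smul_right _ _ _

/-- The action on Veronese vectors. -/
theorem act_nu {d : ℕ} (g : Matrix (Fin 3) (Fin 3) K) (u : Fin 3 → K) :
    act g (nu d u) = nu d (g.mulVec u) := by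
  funext m
  show pr (sub g (mono K m.1)) (nu d u) = nu d (g.mulVec u) m
  rw [pr_nu (sub_homog (mono_homog' m) g), eval_sub, mono_eq]
  simp [nu]

/-! ### Elementary matrices -/

/-- the exponent `m`, with `k` moved from `i` to `j` -/
def mv (i j : Fin 3) (k : ℕ) (m : Fin 3 → ℕ) : Fin 3 → ℕ :=
  Function.update (Function.update m i (m i - k)) j (m j + k)

theorem mv_sum {i j : Fin 3} (hij : i ≠ j) {k : ℕ} {m : Fin 3 → ℕ} (hk : k ≤ m i) :
    mv i j k m 0 + mv i j k m 1 + mv i j k m 2 = m 0 + m 1 + m 2 := by
  fin_cases i <;> fin_cases j <;> simp [mv, Function.update] at * <;> omega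

/-- the exponent `m`, with `k` moved from `i` to `j`, for `k ≤ m i` -/
def mvM {d : ℕ} (i j : Fin 3) (hij : i ≠ j) (m : Mon d) (k : Fin (m.1 i + 1)) : Mon d :=
  ⟨mv i j k m.1, by rw [mv_sum hij (Nat.lt_succ_iff.1 k.2)]; exact m.2⟩

theorem sub_transvection {i j : Fin 3} (hij : i ≠ j) (r : K) (m : Fin 3 → ℕ) :
    sub (Matrix.transvection i j r) (mono K m) =
      ∑ k : Fin (m i + 1), ((Nat.choose (m i) k : K) * r ^ (k : ℕ)) • mono K (mv i j k m) := by
  have h1 : ∀ l, sub (Matrix.transvection i j r) (X l) = if l = i then X i + C r * X j else X l := by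
    intro l
    rw [sub_X]
    by_cases hl : l = i
    · subst hl
      rw [if_pos rfl]
      simp only [Matrix.transvection, Matrix.add_apply, Matrix.one_apply, Matrix.single_apply,
        true_and, map_add, add_mul, Finset.sum_add_distrib]
      congr 1
      · simp
      · rw [Finset.sum_eq_single j]
        · simp
        · intro b _ hb; simp [Ne.symm hb]
        · simp
    · rw [if_neg hl]
      simp only [Matrix.transvection, Matrix.add_apply, Matrix.one_apply, Matrix.single_apply,
        map_add, add_mul, Finset.sum_add_distrib]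
      have : ∀ x, ¬ (i = l ∧ j = x) := fun x h => hl h.1.symm
      simp [this]
  rw [mono_eq, map_prod]
  simp only [map_pow, h1]
  rw [← Finset.mul_prod_erase univ _ (mem_univ i)]
  have h2 : ∏ x ∈ univ.erase i, (if x = i then X i + C r * X j else X x) ^ m x =
      ∏ x ∈ univ.erase i, (X x : MvPolynomial (Fin 3) K) ^ m x := by
    apply Finset.prod_congr rfl
    intro x hx
    rw [if_neg (Finset.ne_of_mem_erase hx)]
  rw [h2, if_pos rfl, add_comm, add_pow, Finset.sum_mul, ← Fin.sum_univ_eq_sum_range
    (fun k => (C r * X j) ^ k * X i ^ (m i - k) * (Nat.choose (m i) k : MvPolynomial (Fin 3) K) *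
      ∏ x ∈ univ.erase i, (X x : MvPolynomial (Fin 3) K) ^ m x)]
  apply Finset.sum_congr rfl
  intro k _
  rw [mono_eq, ← Finset.mul_prod_erase univ (fun x => (X x : MvPolynomial (Fin 3) K) ^
    mv i j k m x) (mem_univ i)]
  have hj : j ∈ univ.erase i := Finset.mem_erase.2 ⟨hij.symm, mem_univ j⟩
  rw [← Finset.mul_prod_erase (univ.erase i) _ hj, ← Finset.mul_prod_erase (univ.erase i)
    (fun x => (X x : MvPolynomial (Fin 3) K) ^ mv i j k m x) hj]
  have h3 : ∏ x ∈ (univ.erase i).erase j, (X x : MvPolynomial (Fin 3) K) ^ mv i j k m x =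
      ∏ x ∈ (univ.erase i).erase j, (X x : MvPolynomial (Fin 3) K) ^ m x := by
    apply Finset.prod_congr rfl
    intro x hx
    have hxj : x ≠ j := Finset.ne_of_mem_erase hx
    have hxi : x ≠ i := Finset.ne_of_mem_erase (Finset.mem_of_mem_erase hx)
    simp [mv, Function.update_of_ne hxj, Function.update_of_ne hxi]
  rw [h3]
  have h4 : mv i j k m i = m i - k := by
    simp [mv, Function.update_of_ne hij]
  have h5 : mv i j k m j = m j + k := by
    simp [mv]
  rw [h4, h5, smul_eq_C_mul, C_mul, C_pow, map_natCast, mul_pow, pow_add]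
  ring

/-- The action of the elementary matrices. -/
theorem act_transvection {d : ℕ} {i j : Fin 3} (hij : i ≠ j) (r : K) (w : Mon d → K) (m : Mon d) :
    act (Matrix.transvection i j r) w m =
      ∑ k : Fin (m.1 i + 1), ((Nat.choose (m.1 i) k : K) * r ^ (k : ℕ)) * w (mvM i j hij m k) := by
  show pr (sub (Matrix.transvection i j r) (mono K m.1)) w = _
  rw [sub_transvection hij, pr_sum_left]
  apply Finset.sum_congr rfl
  intro k _
  rw [pr_smul_left, ← pr_mono (mvM i j hij m k) w]
  rfl

/-! ### The module `J` -/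

section J

variable {ι : Type*}

/-- The module `J`. -/
def JJ (K : Type*) {ι : Type*} (d : ι → ℕ) : Type _ := ∀ i, Mon (d i) → K

variable {d : ι → ℕ}

instance : AddCommGroup (JJ K d) := inferInstanceAs (AddCommGroup (∀ i, Mon (d i) → K))

instance [Fintype ι] [DecidableEq ι] [Fintype K] : Fintype (JJ K d) := by
  classical exact inferInstanceAs (Fintype (∀ i, Mon (d i) → K))

instance [Fintype ι] [DecidableEq K] : DecidableEq (JJ K d) := by
  classical exact inferInstanceAs (DecidableEq (∀ i, Mon (d i) → K))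

theorem JJ.add_apply (w w' : JJ K d) (i : ι) : (w + w') i = w i + w' i := rfl

theorem JJ.zero_apply (i : ι) : (0 : JJ K d) i = 0 := rfl

/-- `J` has exponent two. -/
theorem JJ.add_self [CharP K 2] (w : JJ K d) : w + w = 0 := by
  funext i m
  exact CharTwo.add_self_eq_zero _

noncomputable instance : DistribMulAction (Matrix.SpecialLinearGroup (Fin 3) K) (JJ K d) where
  smul g w := fun i => act g.1 (w i)
  one_smul w := by
    funext i
    exact act_one (w i)
  mul_smul g h w := by
    funext i
    exact act_mul g.1 h.1 (w i)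
  smul_zero g := by
    funext i
    exact act_zero g.1
  smul_add g w w' := by
    funext i
    exact act_add g.1 (w i) (w' i)

theorem JJ.smul_apply (g : Matrix.SpecialLinearGroup (Fin 3) K) (w : JJ K d) (i : ι) :
    (g • w) i = act g.1 (w i) := rfl

/-- the vector `e₁` -/
def e1 (K : Type*) [Field K] : Fin 3 → K := Pi.single 0 1

theorem mulVec_e1 (g : Matrix (Fin 3) (Fin 3) K) : g.mulVec (e1 K) = fun i => g i 0 := by
  funext i
  simp [e1]

variable [DecidableEq ι]

/-- the Veronese vector of `u` in the component `i` -/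
def ven (d : ι → ℕ) (i : ι) (u : Fin 3 → K) : JJ K d := Pi.single i (nu (d i) u)

theorem ven_apply (i j : ι) (u : Fin 3 → K) :
    (ven d i u : JJ K d) j = if j = i then nu (d j) u else 0 := by
  unfold ven
  by_cases h : j = i
  · subst h; rw [if_pos rfl]; exact Pi.single_eq_same _ _
  · rw [if_neg h]; exact Pi.single_eq_of_ne h _

theorem smul_ven (g : Matrix.SpecialLinearGroup (Fin 3) K) (i : ι) (u : Fin 3 → K) :
    g • (ven d i u : JJ K d) = ven d i (g.1.mulVec u) := by
  funext j
  rw [JJ.smul_apply, ven_apply, ven_apply]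
  split_ifs
  · exact act_nu _ _
  · exact act_zero _

/-- the generators of `J` -/
def gen (K : Type*) [Field K] (d : ι → ℕ) (i : ι) : JJ K d := ven d i (e1 K)

theorem smul_gen (g : Matrix.SpecialLinearGroup (Fin 3) K) (i : ι) :
    g • gen K d i = ven d i (fun j => g.1 j 0) := by
  unfold gen
  rw [smul_ven, mulVec_e1]

/-- `SL₃` acts transitively on the vectors `≠ 0`. -/
theorem exists_SL {u : Fin 3 → K} (hu : u ≠ 0) :
    ∃ g : Matrix.SpecialLinearGroup (Fin 3) K, g.1.mulVec (e1 K) = u := by
  have : ∃ M : Matrix (Fin 3) (Fin 3) K, M.det = 1 ∧ ∀ i, M i 0 = u i := by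
    by_cases h0 : u 0 = 0
    · by_cases h1 : u 1 = 0
      · have h2 : u 2 ≠ 0 := by
          intro h2
          apply hu
          funext i
          fin_cases i <;> simp [h0, h1, h2]
        refine ⟨!![u 0, 1, 0; u 1, 0, 1; u 2, 0, 0] * Matrix.diagonal ![1, (u 2)⁻¹, 1], ?_, ?_⟩
        · rw [Matrix.det_mul, Matrix.det_diagonal, Matrix.det_fin_three, Fin.prod_univ_three]
          simp [h0, h1, h2]
        · intro i
          rw [Matrix.mul_diagonal]
          fin_cases i <;> simp
      · refine ⟨!![u 0, 1, 0; u 1, 0, 0; u 2, 0, 1] * Matrix.diagonal ![1, -(u 1)⁻¹, 1], ?_, ?_⟩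
        · rw [Matrix.det_mul, Matrix.det_diagonal, Matrix.det_fin_three, Fin.prod_univ_three]
          simp [h0, h1]
        · intro i
          rw [Matrix.mul_diagonal]
          fin_cases i <;> simp
    · refine ⟨!![u 0, 0, 0; u 1, 1, 0; u 2, 0, 1] * Matrix.diagonal ![1, (u 0)⁻¹, 1], ?_, ?_⟩
      · rw [Matrix.det_mul, Matrix.det_diagonal, Matrix.det_fin_three, Fin.prod_univ_three]
        simp [h0]
      · intro i
        rw [Matrix.mul_diagonal]
        fin_cases i <;> simp
  obtain ⟨M, hM, hu⟩ := this
  exact ⟨⟨M, hM⟩, by rw [mulVec_e1]; exact funext hu⟩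

theorem mulVec_ne_zero (g : Matrix.SpecialLinearGroup (Fin 3) K) {u : Fin 3 → K} (hu : u ≠ 0) :
    g.1.mulVec u ≠ 0 := by
  intro h
  apply hu
  have h1 : (g⁻¹ : Matrix.SpecialLinearGroup (Fin 3) K).1.mulVec (g.1.mulVec u) = 0 := by
    rw [h, Matrix.mulVec_zero]
  rwa [Matrix.mulVec_mulVec, ← Matrix.SpecialLinearGroup.coe_mul, inv_mul_cancel,
    Matrix.SpecialLinearGroup.coe_one, Matrix.one_mulVec] at h1

theorem e1_ne_zero : e1 K ≠ 0 := by
  intro h
  have := congrFun h 0
  simp [e1] at this

/-! ### Characters -/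

/-- Every additive map of a finite field into `ZMod 2` is `x ↦ φ (a x)`. -/
theorem exists_mul_of_hom [Fintype K] (φ : K →+ ZMod 2) (hφ : φ ≠ 0) (χ : K →+ ZMod 2)
    [CharP K 2] : ∃ a : K, ∀ x, χ x = φ (a * x) := by
  classical
  have : Fact (Nat.Prime 2) := ⟨Nat.prime_two⟩
  let _ : Algebra (ZMod 2) K := ZMod.algebra K 2
  let Φ : K →ₗ[ZMod 2] (K →ₗ[ZMod 2] ZMod 2) :=
    { toFun := fun a => AddMonoidHom.toZModLinearMap 2 (φ.comp (AddMonoidHom.mulLeft a))
      map_add' := fun a b => by
        ext x
        show φ ((a + b) * x) = φ (a * x) + φ (b * x)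
        rw [add_mul, map_add]
      map_smul' := fun c a => by
        ext x
        show φ ((c • a) * x) = c • φ (a * x)
        rw [smul_mul_assoc]
        exact (AddMonoidHom.toZModLinearMap 2 φ).map_smul c (a * x) }
  have hinj : Function.Injective Φ := by
    rw [← LinearMap.ker_eq_bot, LinearMap.ker_eq_bot']
    intro a ha
    by_contra hne
    apply hφ
    ext x
    have h1 := LinearMap.congr_fun ha (a⁻¹ * x)
    have h2 : φ (a * (a⁻¹ * x)) = 0 := h1
    rwa [← mul_assoc, mul_inv_cancel₀ hne, one_mul] at h2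
  have : FiniteDimensional (ZMod 2) K := Module.Finite.of_finite
  have hsurj : Function.Surjective Φ := by
    apply (LinearMap.injective_iff_surjective_of_finrank_eq_finrank ?_).1 hinj
    rw [Module.finrank_linearMap, Module.finrank_self, mul_one]
  obtain ⟨a, ha⟩ := hsurj (AddMonoidHom.toZModLinearMap 2 χ)
  exact ⟨a, fun x => (LinearMap.congr_fun ha x).symm⟩

/-- the polynomial with the coefficients `p` -/
noncomputable def poly {d : ℕ} (p : Mon d → K) : MvPolynomial (Fin 3) K := ∑ m : Mon d, p m • mono K m.1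

theorem poly_homog {d : ℕ} (p : Mon d → K) : (poly p).IsHomogeneous d := by
  unfold poly
  apply IsHomogeneous.sum
  intro m _
  rw [smul_eq_C_mul]
  have := (isHomogeneous_C (Fin 3) (p m)).mul (mono_homog' (K := K) m)
  simpa using this

theorem coeff_poly {d : ℕ} (p : Mon d → K) (m : Mon d) : coeff (toF m.1) (poly p) = p m := by
  classical
  unfold poly
  rw [coeff_sum, Finset.sum_eq_single m]
  · simp [mono]
  · intro b _ hb
    rw [coeff_smul, mono, coeff_monomial, if_neg, smul_zero]
    intro h
    exact hb (Subtype.ext (toF_inj h))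
  · intro h
    exact absurd (mem_univ m) h

theorem pr_poly {d : ℕ} (p w : Mon d → K) : pr (poly p) w = ∑ m, p m * w m := by
  unfold pr
  simp only [coeff_poly]

theorem poly_ne_zero {d : ℕ} {p : Mon d → K} (hp : p ≠ 0) : poly p ≠ 0 := by
  intro h
  apply hp
  funext m
  rw [← coeff_poly p m, h, coeff_zero]
  rfl

/-- **Characters of `J`.** -/
theorem exists_poly [Fintype K] [CharP K 2] [Fintype ι] (φ : K →+ ZMod 2) (hφ : φ ≠ 0)
    (χ : JJ K d →+ ZMod 2) : ∃ p : ∀ i, Mon (d i) → K,
      ∀ w : JJ K d, χ w = φ (∑ i, ∑ m, p i m * w i m) := by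
  classical
  have h1 : ∀ i, ∀ m : Mon (d i), ∃ a : K, ∀ x : K,
      χ (Pi.single i (Pi.single m x) : ∀ i, Mon (d i) → K) = φ (a * x) := by
    intro i m
    let χ' : K →+ ZMod 2 :=
      { toFun := fun x => χ (Pi.single i (Pi.single m x) : ∀ i, Mon (d i) → K)
        map_zero' := by
          rw [Pi.single_zero, Pi.single_zero]
          exact map_zero χ
        map_add' := fun x y => by
          rw [Pi.single_add, Pi.single_add]
          exact map_add χ _ _ }
    exact exists_mul_of_hom φ hφ χ'
  choose p hp using h1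
  refine ⟨p, fun w => ?_⟩
  have h2 : w = ∑ i, ∑ m, (Pi.single i (Pi.single m (w i m)) : ∀ i, Mon (d i) → K) := by
    funext j n
    have e1 : ∀ i, (∑ m, (Pi.single i (Pi.single m (w i m)) : ∀ i, Mon (d i) → K)) =
        Pi.single i (w i) := by
      intro i
      funext j' n'
      rw [Finset.sum_apply, Finset.sum_apply]
      by_cases hji : j' = i
      · subst hji
        simp only [Pi.single_eq_same]
        rw [Finset.sum_eq_single n']
        · simp
        · intro b _ hb
          exact Pi.single_eq_of_ne (Ne.symm hb) _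
        · intro h
          exact absurd (mem_univ n') h
      · simp only [Pi.single_eq_of_ne hji]
        simp
    rw [Finset.sum_congr rfl fun i _ => e1 i, Finset.sum_apply, Finset.sum_apply,
      Finset.sum_eq_single j]
    · simp
    · intro b _ hb
      rw [Pi.single_eq_of_ne (Ne.symm hb)]
      rfl
    · intro h
      exact absurd (mem_univ j) h
  have h3 : χ w = ∑ i, ∑ m, χ (Pi.single i (Pi.single m (w i m)) : ∀ i, Mon (d i) → K) := by
    conv_lhs => rw [h2]
    have := map_sum χ (fun i => ∑ m, (Pi.single i (Pi.single m (w i m)) : ∀ i, Mon (d i) → K))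
      univ
    refine this.trans ?_
    apply Finset.sum_congr rfl
    intro i _
    exact map_sum χ (fun m => (Pi.single i (Pi.single m (w i m)) : ∀ i, Mon (d i) → K)) univ
  rw [h3, map_sum]
  apply Finset.sum_congr rfl
  intro i _
  rw [map_sum]
  apply Finset.sum_congr rfl
  intro m _
  exact hp i m (w i m)

/-- **The values of a nontrivial character on the orbit of the generators**: for some `i` they are
`φ (P (g e₁))` for a homogeneous polynomial `P ≠ 0` of degree `d i`. -/
theorem exists_poly_ne [Fintype K] [CharP K 2] [Fintype ι] (φ : K →+ ZMod 2) (hφ : φ ≠ 0)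
    (χ : JJ K d →+ ZMod 2) (hχ : χ ≠ 0) : ∃ (i : ι) (P : MvPolynomial (Fin 3) K),
      P.IsHomogeneous (d i) ∧ P ≠ 0 ∧ ∀ u : Fin 3 → K, χ (ven d i u) = φ (eval u P) := by
  classical
  obtain ⟨p, hp⟩ := exists_poly φ hφ χ
  have h1 : ∃ i, p i ≠ 0 := by
    by_contra h
    push Not at h
    apply hχ
    ext w
    rw [hp]
    have : (∑ i, ∑ m, p i m * w i m) = 0 := by
      apply Finset.sum_eq_zero
      intro i _
      apply Finset.sum_eq_zero
      intro m _
      rw [h i]
      simp
    rw [this, map_zero]
    rfl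
  obtain ⟨i, hi⟩ := h1
  refine ⟨i, poly (p i), poly_homog _, poly_ne_zero hi, fun u => ?_⟩
  rw [hp, ← pr_nu (poly_homog (p i)) u, pr_poly]
  congr 1
  rw [Finset.sum_eq_single i]
  · apply Finset.sum_congr rfl
    intro m _
    rw [ven_apply, if_pos rfl]
  · intro j _ hj
    apply Finset.sum_eq_zero
    intro m _
    rw [ven_apply, if_neg hj]
    simp
  · intro h
    exact absurd (mem_univ i) h

end J

end Vale.Agent.P330.H675
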