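import Vale.Agent.P330.H675.GTab
import Vale.Agent.P330.W.H624.KitDefs

/-!
# P330: the word tables of the kit

The words of `GTab` in the letters of `W.H624.KP`, indexed by the numbers of the pairs `(v, b)` of an
element of `SL₃(Fl l)` and a label, `enG l n`.
-/

namespace Vale.Agent.P330.H675

open Vale.Agent.Lib.PolyTime Vale.Agent.P330.H933 Vale.Agent.P330.H604
open Vale.Agent.P330.W.H624 (ptL ptW)

/-! ### Numbers of pairs -/

/-- The number of the pair `(v, b)` is `b + n * gn l v`. -/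
noncomputable def enG (l n : ℕ) : Fin (cG l * n) ≃ SL3 l × Fin n :=
  finProdFinEquiv.symm.trans (Equiv.prodCongr (gE l).symm (Equiv.refl _))

theorem enG_symm (l n : ℕ) (v : SL3 l) (b : Fin n) :
    ((enG l n).symm (v, b) : ℕ) = b + n * gn l v := rfl

theorem enG_symm_div {l n : ℕ} (m : SL3 l × Fin n) : ((enG l n).symm m : ℕ) / n = gn l m.1 := by
  have hn : 0 < n := m.2.pos
  rw [show m = (m.1, m.2) from rfl, enG_symm, Nat.add_mul_div_left _ _ hn,
    Nat.div_eq_of_lt m.2.2, zero_add]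

theorem enG_symm_mod {l n : ℕ} (m : SL3 l × Fin n) : ((enG l n).symm m : ℕ) % n = m.2 := by
  rw [show m = (m.1, m.2) from rfl, enG_symm, Nat.add_mul_mod_self_left, Nat.mod_eq_of_lt m.2.2]

/-! ### Letters -/

/-- the letter with the number `c` as a pair of numbers -/
def toP (c : ℕ) : ℕ × ℕ := if c < 12 then (2, c) else if c < 20 then (1, c - 12) else (0, 0)

section

variable {l : ℕ} {d : Fin 8 → ℕ} {iJ iG : Type} {sJ : iJ → JJ (Fl l) d} {gG : iG → SL3 l}
  {dJ : ℕ → iJ} {dG : ℕ → iG}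

theorem ptW_toP (hJ : ∀ i (h : i < 8), sJ (dJ i) = gen (Fl l) d ⟨i, h⟩)
    (hG : ∀ c (h : c < 12), gG (dG c) = elt l ⟨c, h⟩) (w : List ℕ) (x : JJ (Fl l) d) :
    ptW sJ gG dJ dG (w.map toP) x = (prW l d w).1 + (prW l d w).2 • x := by
  induction w with
  | nil => simp [ptW, prW]
  | cons c w ih =>
    have e : ptW sJ gG dJ dG ((c :: w).map toP) x =
        ptL sJ gG dJ dG (toP c) (ptW sJ gG dJ dG (w.map toP) x) := rfl
    rw [e, ih, prW_cons]
    generalize prW l d w = p
    have e2 : ∀ y : JJ (Fl l) d, ptL sJ gG dJ dG (toP c) y =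
        (ltP l d c).1 + (ltP l d c).2 • y := by
      intro y
      unfold toP
      by_cases h1 : c < 12
      · rw [if_pos h1, ltP_G h1]
        unfold ptL eltN
        rw [dif_pos h1, zero_add]
        simp [hG c h1]
      · by_cases h2 : c < 20
        · have h3 : c - 12 < 8 := by omega
          have h4 : c = 12 + (c - 12) := by omega
          rw [if_neg h1, if_pos h2]
          conv_rhs => rw [h4, ltP_J h3]
          unfold ptL
          rw [one_smul, add_comm]
          simp [hJ _ h3]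
        · rw [if_neg h1, if_neg h2, ltP_one (by omega)]
          unfold ptL
          simp
    rw [e2]
    simp only [mulP]
    rw [smul_add, mul_smul, add_assoc]

/-- (W1): the words of the translations of the right checks -/
noncomputable def wzT (l : ℕ) (d : Fin 8 → ℕ) (j t m : ℕ) : List (ℕ × ℕ) :=
  (wzW l d j t (ge l (m / 2 ^ (j * t))) (m % 2 ^ (j * t))).map toP

/-- (W2): the words of the translations by the basis -/
noncomputable def weT (l : ℕ) (d : Fin 8 → ℕ) (j : ℕ) : List (ℕ × ℕ) := (weW l d j).map toP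

/-- (W3): the words of the elements of the group -/
noncomputable def wvT (l j t m : ℕ) : List (ℕ × ℕ) := (wordG l (m / 2 ^ (j * t))).map toP

/-- the index of the word read by the right check -/
noncomputable def srT (l : ℕ) (d : Fin 8 → ℕ) (j t m : ℕ) : ℕ :=
  m % 2 ^ (j * t) + 2 ^ (j * t) * gn l (ge l (m / 2 ^ (j * t)) *
    (labP (lett l d) j t (m % 2 ^ (j * t))).2⁻¹)

theorem ptW_wzT (hJ : ∀ i (h : i < 8), sJ (dJ i) = gen (Fl l) d ⟨i, h⟩)
    (hG : ∀ c (h : c < 12), gG (dG c) = elt l ⟨c, h⟩) (j t : ℕ)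
    (m : SL3 l × Fin (2 ^ (j * t))) (x : JJ (Fl l) d) :
    ptW sJ gG dJ dG (wzT l d j t ((enG l (2 ^ (j * t))).symm m)) x =
      x + (m.1 * (H143.lab (th l) d j t m.2).2⁻¹) • (H143.lab (th l) d j t m.2).1 := by
  unfold wzT
  rw [enG_symm_div, enG_symm_mod, ge_gn, ptW_toP hJ hG, prW_wzW, one_smul, add_comm]
  have e := lab_eq l d j t m.2
  rw [← e]

theorem length_wzT (j t m : ℕ) : (wzT l d j t m).length ≤ lenW l t := by
  unfold wzT lenW
  rw [List.length_map]
  have := length_wzW (d := d) j t (ge l (m / 2 ^ (j * t))) (m % 2 ^ (j * t))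
  omega

theorem ptW_weT (hJ : ∀ i (h : i < 8), sJ (dJ i) = gen (Fl l) d ⟨i, h⟩)
    (hG : ∀ c (h : c < 12), gG (dG c) = elt l ⟨c, h⟩) {j : ℕ} (hj : j < kap l d)
    (x : JJ (Fl l) d) : ptW sJ gG dJ dG (weT l d j) x = x + ebas l d j := by
  unfold weT
  rw [ptW_toP hJ hG, prW_weW hj, one_smul, add_comm]

theorem length_weT {j : ℕ} (hj : j < kap l d) (t : ℕ) : (weT l d j).length ≤ lenW l t := by
  unfold weT lenW
  rw [List.length_map]
  have := length_weW (d := d) hj
  omega

theorem ptW_wvT (hJ : ∀ i (h : i < 8), sJ (dJ i) = gen (Fl l) d ⟨i, h⟩)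
    (hG : ∀ c (h : c < 12), gG (dG c) = elt l ⟨c, h⟩) (j t : ℕ)
    (m : SL3 l × Fin (2 ^ (j * t))) (x : JJ (Fl l) d) :
    ptW sJ gG dJ dG (wvT l j t ((enG l (2 ^ (j * t))).symm m)) x = m.1 • x := by
  unfold wvT
  rw [enG_symm_div, ptW_toP hJ hG, prW_wordG, zero_add]

theorem length_wvT (j t : ℕ) (m : SL3 l × Fin (2 ^ (j * t))) :
    (wvT l j t ((enG l (2 ^ (j * t))).symm m)).length ≤ lenW l t := by
  unfold wvT lenW
  rw [List.length_map, enG_symm_div]
  have := (wordG_spec m.1).2.2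
  omega

theorem srT_eq (j t : ℕ) (m : SL3 l × Fin (2 ^ (j * t))) :
    srT l d j t ((enG l (2 ^ (j * t))).symm m) =
      ((enG l (2 ^ (j * t))).symm (m.1 * (H143.lab (th l) d j t m.2).2⁻¹, m.2) : ℕ) := by
  unfold srT
  rw [enG_symm_div, enG_symm_mod, ge_gn, enG_symm, ← lab_eq l d j t m.2]

theorem lenW_pos (l t : ℕ) : 0 < lenW l t := by
  unfold lenW
  omega

end

/-! ### Polynomial time -/

section

variable {A : Set Word} {α : Type} [Enc α] {l : α → ℕ} {d : α → Fin 8 → ℕ}

theorem PT_toP {w : α → List ℕ} (hw : PT A w) : PT A (fun a => (w a).map toP) := by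
  refine PT.map (f := fun _ c => toP c) hw ?_
  unfold toP
  exact PT.ite (PT.lt PT.snd' (PT.const 12)) ((PT.const 2).pair PT.snd')
    (PT.ite (PT.lt PT.snd' (PT.const 20)) ((PT.const 1).pair (PT.sub PT.snd' (PT.const 12)))
      (PT.const (0, 0)))

theorem JPar.PT_wzT (h : JPar A l d) (j t : ℕ) {m : α → ℕ} (hm : PT A m) :
    PT A (fun a => wzT (l a) (d a) j t (m a)) :=
  PT_toP (h.PT_wzW j t (GT.ofNum h.toGPar (PT.div hm (PT.const _))) (PT.mod hm (PT.const _)))

theorem JPar.PT_weT (h : JPar A l d) {j : α → ℕ} (hj : PT A j) :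
    PT A (fun a => weT (l a) (d a) (j a)) := PT_toP (h.PT_weW hj)

theorem PT_wvT (h : GPar A l) (j t : ℕ) {m : α → ℕ} (hm : PT A m) :
    PT A (fun a => wvT (l a) j t (m a)) := PT_toP (PT_wordG h (PT.div hm (PT.const _)))

theorem JPar.PT_srT (h : JPar A l d) (j t : ℕ) {m : α → ℕ} (hm : PT A m) :
    PT A (fun a => srT (l a) (d a) j t (m a)) := by
  have h1 : PT A (fun a => m a % 2 ^ (j * t)) := PT.mod hm (PT.const _)
  have h2 : GT A l (fun a => (labP (lett (l a) (d a)) j t (m a % 2 ^ (j * t))).2) :=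
    (h.ST_lab j t h1).snd PT.id
  exact PT.add h1 (PT.mul (PT.const _) (GT.mul h.toGPar
    (GT.ofNum h.toGPar (PT.div hm (PT.const _))) (GT.inv h.toGPar h2)))

end

end Vale.Agent.P330.H675
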