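import Vale.Agent.P330.H675.Key
import Vale.Agent.P330.W.H604.Site

/-!
# P330, block GRP: the elements of `J` as numbers

`bas l d`: a basis of `J = JJ (Fl l) d`, each vector with a word `w` and a component `i` such that
it is `wgN w • gen i`.  `jn l d x`: the number of `x`, the bits are the coordinates.  `jv l d n`: the
element with the number `n`.  `jnum`: the numbering in the form of `H604.JNum`.
-/

namespace Vale.Agent.P330.H675

open Vale.Agent.Lib.PolyTime Vale.Agent.P330.H933 Vale.Agent.P330.H604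

section Defs

variable {r : ℕ} [NeZero r]

/-- the candidates: component, number of the vector, word -/
noncomputable def cands (r l : ℕ) : List (ℕ × ℕ × List ℕ) :=
  (List.range r).flatMap fun i => (vtab l).map fun p => (i, p.1, p.2)

/-- the element of `J` of a candidate -/
noncomputable def cv (l : ℕ) (d : Fin r → ℕ) (c : ℕ × ℕ × List ℕ) : JJ (Fl l) d :=
  ven d (fr r c.1) (vd l c.2.1)

omit [NeZero r] in
theorem JJ.add_self' {l : ℕ} {d : Fin r → ℕ} (x : JJ (Fl l) d) : x + x = 0 := JJ.add_self x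

omit [NeZero r] in
theorem mem_cands {l : ℕ} {c : ℕ × ℕ × List ℕ} (hc : c ∈ cands r l) :
    c.1 < r ∧ (c.2.1, c.2.2) ∈ vtab l := by
  unfold cands at hc
  rw [List.mem_flatMap] at hc
  obtain ⟨i, hi, hc⟩ := hc
  obtain ⟨p, hp, rfl⟩ := List.mem_map.1 hc
  exact ⟨List.mem_range.1 hi, hp⟩

/-- the element of a candidate is the image of a generator under the element of the word -/
theorem cv_eq {l : ℕ} {d : Fin r → ℕ} {c : ℕ × ℕ × List ℕ} (hc : c ∈ cands r l) :
    cv l d c = wgN (th l) c.2.2 • gen (Fl l) d (fr r c.1) := by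
  obtain ⟨-, h2⟩ := mem_cands hc
  have h3 := (vtab_spec h2).1
  unfold gen
  rw [smul_ven, h3]
  rfl

theorem closure_cv {l : ℕ} {d : Fin r → ℕ} (h : DegOK (Fl l) d) :
    AddSubgroup.closure (cv l d '' {c | c ∈ cands r l}) = ⊤ := by
  rw [eq_top_iff, ← closure_ven h, AddSubgroup.closure_le]
  rintro _ ⟨i, u, hu, rfl⟩
  obtain ⟨w, hw⟩ := mem_vtab hu
  apply AddSubgroup.subset_closure
  refine ⟨((i : ℕ), vn l u, w), ?_, ?_⟩
  · show _ ∈ cands r l
    unfold cands
    rw [List.mem_flatMap]
    exact ⟨i, List.mem_range.2 i.2, List.mem_map.2 ⟨_, hw, rfl⟩⟩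
  · unfold cv
    rw [fr_fin, vd_vn]

open Classical in
/-- the list of all elements of `J` -/
noncomputable def spn (l : ℕ) (d : Fin r → ℕ) : List (JJ (Fl l) d) := (greedy (cv l d) (cands r l)).1

open Classical in
/-- the basis -/
noncomputable def bas (l : ℕ) (d : Fin r → ℕ) : List (ℕ × ℕ × List ℕ) :=
  (greedy (cv l d) (cands r l)).2

/-- the dimension of `J` -/
noncomputable def kap (l : ℕ) (d : Fin r → ℕ) : ℕ := (bas l d).length

open Classical in
/-- the number of an element of `J` -/
noncomputable def jn (l : ℕ) (d : Fin r → ℕ) (x : JJ (Fl l) d) : ℕ := (spn l d).idxOf x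

/-- the element of `J` with a given number -/
noncomputable def jv (l : ℕ) (d : Fin r → ℕ) (n : ℕ) : JJ (Fl l) d := comb (cv l d) (bas l d) n

variable {l : ℕ} {d : Fin r → ℕ}

theorem jv_xor (n m : ℕ) : jv l d (n ^^^ m) = jv l d n + jv l d m :=
  comb_xor JJ.add_self' _ _ _ _

theorem jv_zero : jv l d 0 = 0 := comb_zero _ _

theorem jv_mod (n : ℕ) : jv l d (n % 2 ^ kap l d) = jv l d n := comb_mod _ _ _

theorem ginv_spn : GInv (cv l d) (spn l d, bas l d) := by
  classical
  exact (greedy_spec JJ.add_self' (cv l d) (cands r l)).1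

theorem jn_lt (h : DegOK (Fl l) d) (x : JJ (Fl l) d) : jn l d x < 2 ^ kap l d := by
  classical
  exact (comb_idxOf (cv l d) (cands r l) JJ.add_self' (closure_cv h) x).1

theorem jv_jn (h : DegOK (Fl l) d) (x : JJ (Fl l) d) : jv l d (jn l d x) = x := by
  classical
  exact (comb_idxOf (cv l d) (cands r l) JJ.add_self' (closure_cv h) x).2

theorem jn_inj (h : DegOK (Fl l) d) : Function.Injective (jn l d) := fun x y hxy => by
  rw [← jv_jn h x, hxy, jv_jn h]

theorem jn_jv (h : DegOK (Fl l) d) {n : ℕ} (hn : n < 2 ^ kap l d) : jn l d (jv l d n) = n := by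
  classical
  have h1 := ginv_spn (l := l) (d := d)
  have h2 := h1.get n hn
  have h3 := h1.get _ (jn_lt h (jv l d n))
  have h4 : comb (cv l d) (bas l d) (jn l d (jv l d n)) = comb (cv l d) (bas l d) n :=
    jv_jn h (jv l d n)
  have h5 : (spn l d)[jn l d (jv l d n)]? = (spn l d)[n]? := by
    have h2' : (spn l d)[n]? = some (comb (cv l d) (bas l d) n) := h2
    have h3' : (spn l d)[jn l d (jv l d n)]? =
      some (comb (cv l d) (bas l d) (jn l d (jv l d n))) := h3
    rw [h3', h4, h2']
  refine (List.getElem?_inj ?_ h1.nodup).1 h5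
  have h6 : (spn l d).length = 2 ^ kap l d := h1.len
  rw [h6]
  exact jn_lt h _

theorem jn_add (h : DegOK (Fl l) d) (x y : JJ (Fl l) d) :
    jn l d (x + y) = jn l d x ^^^ jn l d y := by
  have h1 : jn l d x ^^^ jn l d y < 2 ^ kap l d := Nat.xor_lt_two_pow (jn_lt h x) (jn_lt h y)
  rw [← jn_jv h h1, jv_xor, jv_jn h, jv_jn h]

theorem jn_zero (h : DegOK (Fl l) d) : jn l d 0 = 0 := by
  have := jn_add h (0 : JJ (Fl l) d) 0
  rwa [add_zero, Nat.xor_self] at this

/-- The number of elements. -/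
theorem card_JJ (h : DegOK (Fl l) d) : Fintype.card (JJ (Fl l) d) = 2 ^ kap l d := by
  classical
  exact card_eq (cv l d) (cands r l) JJ.add_self' (closure_cv h)

/-! ### The basis -/

/-- the data of the basis vector with the number `j` -/
noncomputable def bj (l : ℕ) (d : Fin r → ℕ) (j : ℕ) : ℕ × ℕ × List ℕ := (bas l d).getD j (0, 0, [])

/-- the basis vector with the number `j` -/
noncomputable def ebas (l : ℕ) (d : Fin r → ℕ) (j : ℕ) : JJ (Fl l) d := cv l d (bj l d j)

theorem bj_mem {j : ℕ} (hj : j < kap l d) : bj l d j ∈ cands r l := by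
  classical
  have h1 : bj l d j ∈ bas l d := by
    unfold bj
    rw [List.getD_eq_getElem _ _ hj]
    exact List.getElem_mem _
  exact greedy_sub (cv l d) (cands r l) _ h1

theorem jv_eq_sum (n : ℕ) :
    jv l d n = ∑ j ∈ Finset.range (kap l d), if n.testBit j = true then ebas l d j else 0 := by
  unfold jv
  rw [comb_eq_sum, ← Fin.sum_univ_eq_sum_range (fun j => if n.testBit j = true then
    ebas l d j else 0) (kap l d)]
  apply Finset.sum_congr rfl
  intro j _
  have e : ebas l d (j : ℕ) = cv l d ((bas l d).get j) := by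
    unfold ebas bj
    rw [List.getD_eq_getElem _ _ j.2]
    rfl
  rw [e]

theorem jv_two_pow {j : ℕ} (hj : j < kap l d) : jv l d (2 ^ j) = ebas l d j := by
  rw [jv_eq_sum, Finset.sum_eq_single j]
  · rw [if_pos]
    rw [Nat.testBit_two_pow]
    simp
  · intro b _ hb
    rw [if_neg]
    rw [Nat.testBit_two_pow]
    simpa using fun h => hb h.symm
  · intro h
    exact absurd (Finset.mem_range.2 hj) h

theorem jn_ebas (h : DegOK (Fl l) d) {j : ℕ} (hj : j < kap l d) :
    jn l d (ebas l d j) = 2 ^ j := by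
  rw [← jv_two_pow hj]
  exact jn_jv h (Nat.pow_lt_pow_right (by norm_num) hj)

/-- **The basis vectors are in the orbits of the generators.** -/
theorem ebas_eq {j : ℕ} (hj : j < kap l d) :
    ebas l d j = wgN (th l) (bj l d j).2.2 • gen (Fl l) d (fr r (bj l d j).1) :=
  cv_eq (bj_mem hj)

theorem bj_lt {j : ℕ} (hj : j < kap l d) : ∀ n ∈ (bj l d j).2.2, n < 12 :=
  (vtab_spec (mem_cands (bj_mem hj)).2).2.1

theorem bj_len {j : ℕ} (hj : j < kap l d) : (bj l d j).2.2.length ≤ 2 ^ (eF l * 3) :=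
  (vtab_spec (mem_cands (bj_mem hj)).2).2.2.2

/-- coordinates: `J` is `kap l d` copies of `ZMod 2` -/
noncomputable def jco (l : ℕ) (d : Fin r → ℕ) (h : DegOK (Fl l) d) :
    JJ (Fl l) d ≃+ (Fin (kap l d) → ZMod 2) :=
  by classical exact geq (cv l d) (cands r l) JJ.add_self' (closure_cv h)

theorem jco_jv (h : DegOK (Fl l) d) (n : ℕ) (j : Fin (kap l d)) :
    jco l d h (jv l d n) j = if n.testBit j = true then 1 else 0 := by
  classical
  exact geq_comb (cv l d) (cands r l) JJ.add_self' (closure_cv h) n j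

theorem jco_apply (h : DegOK (Fl l) d) (x : JJ (Fl l) d) (j : Fin (kap l d)) :
    jco l d h x j = if (jn l d x).testBit j = true then 1 else 0 := by
  conv_lhs => rw [← jv_jn h x]
  exact jco_jv h _ j

end Defs

/-! ### Polynomial time -/

section PTJ

variable {A : Set Word} {α : Type} [Enc α] {r : ℕ} [NeZero r] {l : α → ℕ} {d : α → Fin r → ℕ}

omit [NeZero r] in
theorem JPar.PT_cands (h : JPar A l d) : PT A (fun a => cands r (l a)) := by
  unfold cands
  refine PT.flatMap (f := fun a i => (vtab (l a)).map fun p => (i, p.1, p.2))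
    (PT.const (List.range r)) ?_
  exact PT.map (f := fun (q : α × ℕ) (p : ℕ × List ℕ) => (q.2, p.1, p.2))
    ((PT_vtab h.toGPar).comp PT.fst') (PT.fst'.snd.pair (PT.snd'.fst.pair PT.snd'.snd))

theorem JPar.PT_cv (h : JPar A l d) : PT A (fun p : α × (ℕ × ℕ × List ℕ) =>
    kp (l p.1) (d p.1) (cv (l p.1) (d p.1) p.2)) := by
  have h' : JPar A (fun p : α × (ℕ × ℕ × List ℕ) => l p.1) (fun p => d p.1) := h.comp PT.fst'
  exact h'.kp_ven (i := fun p => p.2.1) PT.snd'.fst
    (VT.ofNum h'.toLPar (n := fun p => p.2.2.1) PT.snd'.snd.fst)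

theorem JPar.PT_pair (h : JPar A l d) :
    PT A (fun a => ((spn (l a) (d a)).map (kp (l a) (d a)), bas (l a) (d a))) := by
  classical
  have hB : PBd (fun a => eF (l a) * (r * (2 ^ eF (l a) * 2 ^ eF (l a)))) := by
    have h1 := h.toLPar.eFbd
    have h2 : PBd (fun a => 2 ^ eF (l a)) := h.qbd
    fun_prop
  have := PT_greedy (A := A) (J := fun a => JJ (Fl (l a)) (d a)) (v := fun a => cv (l a) (d a))
    (key := fun a => kp (l a) (d a)) (fun a => JJ.add_self') (fun a => kp_inj (h.ok a))
    (fun a => kp_add _ _) h.PT_cands h.PT_cv h.jbd hB (fun a x => kp_lt _ _ _)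
  unfold spn bas
  exact this

theorem JPar.PT_bas (h : JPar A l d) : PT A (fun a => bas (l a) (d a)) := h.PT_pair.snd

theorem JPar.PT_kap (h : JPar A l d) : PT A (fun a => kap (l a) (d a)) := PT.length h.PT_bas

theorem JPar.pbd (h : JPar A l d) : PBd (fun a => 2 ^ kap (l a) (d a)) :=
  h.jbd.mono fun a => (card_JJ (h.ok a)).ge

theorem JPar.kbd (h : JPar A l d) : PBd (fun a => kap (l a) (d a)) :=
  h.pbd.mono fun _ => (Nat.lt_two_pow_self).le

theorem JPar.PT_bj (h : JPar A l d) {j : α → ℕ} (hj : PT A j) :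
    PT A (fun a => bj (l a) (d a) (j a)) := PT.getD h.PT_bas hj (PT.const _)

theorem jn_eq_idxOf {l : ℕ} {d : Fin r → ℕ} (h : DegOK (Fl l) d) (x : JJ (Fl l) d) :
    jn l d x = ((spn l d).map (kp l d)).idxOf (kp l d x) := by
  classical
  unfold jn
  have key : ∀ L : List (JJ (Fl l) d), (L.map (kp l d)).idxOf (kp l d x) = L.idxOf x := by
    intro L
    induction L with
    | nil => rfl
    | cons y L ih =>
      rw [List.map_cons]
      by_cases hy : y = x
      · subst hy
        simp
      · rw [List.idxOf_cons_ne _ hy, List.idxOf_cons_ne _ (fun e => hy (kp_inj h e)), ih]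
  exact (key _).symm

/-- From the key to the number. -/
theorem JPar.ofKey (h : JPar A l d) {x : ∀ a, JJ (Fl (l a)) (d a)}
    (hx : PT A (fun a => kp (l a) (d a) (x a))) : PT A (fun a => jn (l a) (d a) (x a)) :=
  (PT_idxOf h.PT_pair.fst hx).congr fun a => (jn_eq_idxOf (h.ok a) (x a)).symm

/-- **Numbers of Veronese vectors.** -/
theorem JPar.jn_ven (h : JPar A l d) {i : α → ℕ} (hi : PT A i) {u : ∀ a, Fin 3 → Fl (l a)}
    (hu : VT A l u) : PT A (fun a => jn (l a) (d a) (ven (d a) (fr r (i a)) (u a))) :=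
  h.ofKey (h.kp_ven hi hu)

/-- **The action in polynomial time.** -/
theorem JPar.jn_smul (h : JPar A l d) {g : ∀ a, SL3 (l a)} (hg : GT A l g) {n : α → ℕ}
    (hn : PT A n) : PT A (fun a => jn (l a) (d a) (g a • jv (l a) (d a) (n a))) := by
  have key : ∀ a j, Nat.rec (motive := fun _ => ℕ) 0 (fun i s => s ^^^
      (if (n a).testBit i = true then jn (l a) (d a) (g a • ebas (l a) (d a) i) else 0)) j =
      jn (l a) (d a) (g a • ∑ i ∈ Finset.range j, if (n a).testBit i = true then
        ebas (l a) (d a) i else 0) := by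
    intro a j
    induction j with
    | zero => simp [jn_zero (h.ok a)]
    | succ j ih =>
      rw [Finset.sum_range_succ, smul_add, jn_add (h.ok a), ← ih]
      have e : jn (l a) (d a) (g a • if (n a).testBit j = true then ebas (l a) (d a) j else 0) =
          if (n a).testBit j = true then jn (l a) (d a) (g a • ebas (l a) (d a) j) else 0 := by
        split_ifs
        · rfl
        · rw [smul_zero, jn_zero (h.ok a)]
      rw [e]
  have h' : JPar A (fun p : α × ℕ × ℕ => l p.1) (fun p => d p.1) := h.comp PT.fst'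
  have hb : PT A (fun p : α × ℕ × ℕ => bj (l p.1) (d p.1) p.2.1) := h'.PT_bj PT.snd'.fst
  have hg' : MT A (fun p : α × ℕ × ℕ => l p.1) (fun p => (g p.1).1) :=
    MT.comp (hg.toMT h.toGPar) PT.fst'
  have hv : VT A (fun p : α × ℕ × ℕ => l p.1)
      (fun p => (g p.1).1.mulVec (vd (l p.1) (bj (l p.1) (d p.1) p.2.1).2.1)) :=
    VT.mulVec h'.toLPar hg' (VT.ofNum h'.toLPar hb.snd.fst)
  have hstep : PT A (fun p : α × ℕ × ℕ => p.2.2 ^^^ (if (n p.1).testBit p.2.1 = true then
      jn (l p.1) (d p.1) (g p.1 • ebas (l p.1) (d p.1) p.2.1) else 0)) := by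
    refine PT.natXor PT.snd'.snd (PT.ite (S.PT_decideBool (PT.testBit (hn.comp PT.fst')
      PT.snd'.fst)) ?_ (PT.const 0))
    refine (h'.jn_ven hb.fst hv).congr fun p => ?_
    unfold ebas cv
    rw [smul_ven]
  have h3 : PT A (fun a => Nat.rec (motive := fun _ => ℕ) 0 (fun i s => s ^^^
      (if (n a).testBit i = true then jn (l a) (d a) (g a • ebas (l a) (d a) i) else 0))
      (kap (l a) (d a))) := by
    refine PT.natRec (init := fun _ => 0) (step := fun a i s => s ^^^
      (if (n a).testBit i = true then jn (l a) (d a) (g a • ebas (l a) (d a) i) else 0))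
      h.PT_kap h.kbd (PT.const 0) hstep h.kbd fun a j _ => ?_
    rw [key]
    exact esize_nat_le (jn_lt (h.ok a) _)
  exact h3.congr fun a => by
    rw [key, ← jv_eq_sum]

/-- **The numbering of `J`.** -/
noncomputable def jnum (h : JPar A l d) : JNum A l (fun a => JJ (Fl (l a)) (d a)) where
  κ a := kap (l a) (d a)
  num a x := jn (l a) (d a) x
  val a n := jv (l a) (d a) n
  num_lt a x := jn_lt (h.ok a) x
  val_num a x := jv_jn (h.ok a) x
  num_val a n hn := jn_jv (h.ok a) hn
  num_add a x y := jn_add (h.ok a) x y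
  κ_pt := h.PT_kap
  κ_bd := h.pbd
  act_pt := by
    have h' : JPar A (fun p : α × ℕ × ℕ => l p.1) (fun p => d p.1) := h.comp PT.fst'
    exact h'.jn_smul (g := fun p => ge (l p.1) p.2.1) (n := fun p => p.2.2)
      (GT.ofNum h'.toGPar PT.snd'.fst) PT.snd'.snd

end PTJ

end Vale.Agent.P330.H675
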