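import Vale.Agent.P330.H675.KWords
import Vale.Agent.P330.W.H624.KitOk
import Vale.Agent.P330.H933.Etab

/-!
# P330: the tables of the kit for the concrete group

`kpI`: the record `W.H624.KP` for `J = JJ (Fl l) d`, `Γ = SL₃(Fl l)`, the labels `H143.lab`, and
coefficients in `Fl L`; `kpI_ok`: `KP.OK`; all tables in polynomial time.
-/

namespace Vale.Agent.P330.H675

open Vale.Agent.Lib.PolyTime Vale.Agent.P330.H933 Vale.Agent.P330.H604 Vale.Agent.P330.H155
open Vale.Agent.P330.W.H624 Vale.Agent.P330.W.H972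
open Vale.Agent.P330.H16 (V2 bx)

section defs

variable (l L : ℕ) (d : Fin 8 → ℕ) (j t : ℕ)
  (P0 P1 : Submodule (ZMod 2) (Fin (2 ^ (j * t)) → ZMod 2))
  (B1 B2 : Finset (Fin (2 ^ (j * t)))) (eps : Fl L)

/-- the part of the labels in the group -/
noncomputable def etaL (b : Fin (2 ^ (j * t))) : SL3 l := (H143.lab (th l) d j t b).2

/-- the part of the labels in `J` -/
noncomputable def betL (b : Fin (2 ^ (j * t))) : JJ (Fl l) d := (H143.lab (th l) d j t b).1

/-- a number as a label -/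
def lbN (i : ℕ) : Fin (2 ^ (j * t)) := ⟨i % 2 ^ (j * t), Nat.mod_lt _ (by positivity)⟩

/-- the pair with a given number -/
noncomputable def enN (i : ℕ) : SL3 l × Fin (2 ^ (j * t)) := (ge l (i / 2 ^ (j * t)), lbN j t i)

theorem enG_eq (i : Fin (cG l * 2 ^ (j * t))) : enG l (2 ^ (j * t)) i = enN l j t i := rfl

open Classical in
/-- the system modulo the augmentation ideal, over numbers -/
noncomputable def mH : Matrix (Fin (cG l * 2 ^ (j * t))) (Fin (cG l * 2 ^ (j * t))) (Fl L) :=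
  (matH (etaL l d j t) P0 P1 B1 B2 eps).submatrix (enG l _) (enG l _)

open Classical in
/-- its inverse -/
noncomputable def mA : Matrix (Fin (cG l * 2 ^ (j * t))) (Fin (cG l * 2 ^ (j * t))) (Fl L) :=
  (matA (etaL l d j t) P0 P1 B1 B2 eps).submatrix (enG l _) (enG l _)

open Classical in
/-- the right checks, over numbers -/
noncomputable def mQ : Matrix (Fin (cG l * 2 ^ (j * t))) (Fin (cG l * 2 ^ (j * t))) (Fl L) :=
  Matrix.of fun i m => matQ P1 B1 B2 eps (enN l j t i) (enN l j t m)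

theorem mA_eq : mA l L d j t P0 P1 B1 B2 eps = (mH l L d j t P0 P1 B1 B2 eps)⁻¹ := by
  classical
  unfold mA mH matA
  rw [Matrix.inv_submatrix_equiv]

/-- the indicator of the information labels -/
noncomputable def indI (i : ℕ) : Fl L := if lbN j t i ∉ B1 ∧ lbN j t i ∉ B2 then 1 else 0

/-- the coefficients of the right hand side -/
noncomputable def cGI (m : ℕ) : Fl L := if h : m < cG l * 2 ^ (j * t) then
  (mA l L d j t P0 P1 B1 B2 eps).mulVec (fun i => indI L j t B1 B2 i) ⟨m, h⟩ else 0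

/-- the coefficients of the rounds -/
noncomputable def beI (m i : ℕ) : Fl L :=
  if h : m < cG l * 2 ^ (j * t) ∧ i < cG l * 2 ^ (j * t) then
    (mA l L d j t P0 P1 B1 B2 eps * mQ l L j t P1 B1 B2 eps) ⟨m, h.1⟩ ⟨i, h.2⟩ else 0

/-- the translation of the right check with the number `m` -/
noncomputable def zN (m : ℕ) : JJ (Fl l) d := zB (betL l d j t) (etaL l d j t) (enN l j t m)

/-- **The tables of the kit.** -/
noncomputable def kpI : KP (Fl L) (Fin 8) (Fin 12) (SL3 l) (Fin (2 ^ (j * t))) where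
  M := cG l * 2 ^ (j * t)
  κ := kap l d
  Lw := lenW l t
  nP := kap l d
  nE := kap l d
  ix v b := b + 2 ^ (j * t) * gn l v
  dJ := fr 8
  dG := fr 12
  cG := cGI l L d j t P0 P1 B1 B2 eps
  be := beI l L d j t P0 P1 B1 B2 eps
  dp p m i := beI l L d j t P0 P1 B1 B2 eps m i *
    (if (jn l d (zN l d j t i)).testBit p = true then 1 else 0)
  sr := srT l d j t
  wz := wzT l d j t
  we := weT l d
  wv := wvT l j t

end defs

section ok

variable {l L : ℕ} {d : Fin 8 → ℕ} {j t : ℕ}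
  {P0 P1 : Submodule (ZMod 2) (Fin (2 ^ (j * t)) → ZMod 2)}
  {B1 B2 : Finset (Fin (2 ^ (j * t)))} {eps : Fl L}

theorem enN_symm (m : SL3 l × Fin (2 ^ (j * t))) :
    enN l j t ((enG l (2 ^ (j * t))).symm m : ℕ) = m := by
  rw [← enG_eq, Equiv.apply_symm_apply]

/-- The dimension is less than the number of pairs. -/
theorem kap_le_eight (h : DegOK (Fl l) d) : kap l d ≤ cG l * 8 := by
  classical
  let f : Fin (kap l d) → SL3 l × Fin 8 := fun i =>
    (wgN (th l) (bj l d i).2.2, fr 8 (bj l d i).1)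
  have hf : Function.Injective f := by
    intro i i' hii
    have h1 : ebas l d i = ebas l d i' := by
      rw [ebas_eq i.2, ebas_eq i'.2]
      have e1 : wgN (th l) (bj l d i).2.2 = wgN (th l) (bj l d i').2.2 := congrArg Prod.fst hii
      have e2 : fr 8 (bj l d i).1 = fr 8 (bj l d i').1 := congrArg Prod.snd hii
      rw [e1, e2]
    have h2 := congrArg (jn l d) h1
    rw [jn_ebas h i.2, jn_ebas h i'.2] at h2
    exact Fin.ext (Nat.pow_right_injective le_rfl h2)
  have h3 := Fintype.card_le_of_injective f hf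
  rwa [Fintype.card_fin, Fintype.card_prod, Fintype.card_fin, card_SL3] at h3

theorem kap_le_pairs (h : DegOK (Fl l) d) (hj : 3 ≤ j * t) : kap l d ≤ cG l * 2 ^ (j * t) :=
  (kap_le_eight h).trans (Nat.mul_le_mul_left _
    (le_trans (by norm_num) (Nat.pow_le_pow_right (by norm_num) hj)))

theorem bx_jco (h : DegOK (Fl l) d) {p : ℕ} (hp : p < kap l d) (x : JJ (Fl l) d) :
    (bx p (jco l d h x) : Fl L) = if (jn l d x).testBit p = true then 1 else 0 := by
  unfold H16.bx
  rw [dif_pos hp, jco_apply]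
  by_cases hb : (jn l d x).testBit p = true
  · simp [hb]
  · simp [hb]

theorem jco_symm_e (h : DegOK (Fl l) d) {i : ℕ} (hi : i < kap l d) :
    (jco l d h).symm (H16.e (kap l d) i) = ebas l d i := by
  rw [AddEquiv.symm_apply_eq]
  funext b
  rw [jco_apply, jn_ebas h hi, Nat.testBit_two_pow]
  unfold H16.e
  by_cases hb : i = (b : ℕ)
  · simp [hb]
  · have : ¬ (b : ℕ) = i := fun e => hb e.symm
    simp [hb, this]

/-- **The tables are correct.** -/
theorem kpI_ok [DecidableEq (SL3 l)] (h : DegOK (Fl l) d) (hj : 3 ≤ j * t)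
    (g : Gen (JJ (Fl l) d) (SL3 l) (Fl L) (Fin 8) (Fin 12)) (hsJ : ∀ i, g.sJ i = gen (Fl l) d i)
    (hgG : ∀ c, g.gG c = elt l c) (hnP : g.nP = kap l d) (hnE : g.nE = kap l d)
    (hphi : ∀ p < kap l d, ∀ x, g.phi p x = bx p (jco l d h x))
    (heb : ∀ i < kap l d, g.eb i = (jco l d h).symm (H16.e (kap l d) i)) :
    KP.OK (kpI l L d j t P0 P1 B1 B2 eps) g (jco l d h) (enG l (2 ^ (j * t))) (betL l d j t)
      (etaL l d j t) P0 P1 B1 B2 eps := by
  have hJ : ∀ i (h : i < 8), g.sJ (fr 8 i) = gen (Fl l) d ⟨i, h⟩ := by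
    intro i hi
    rw [hsJ]
    congr 1
    exact Fin.ext (Nat.mod_eq_of_lt hi)
  have hG : ∀ c (h : c < 12), g.gG (fr 12 c) = elt l ⟨c, h⟩ := by
    intro c hc
    rw [hgG]
    congr 1
    exact Fin.ext (Nat.mod_eq_of_lt hc)
  have hphi' : ∀ p < kap l d, ∀ x, g.phi p x = if (jn l d x).testBit p = true then 1 else 0 :=
    fun p hp x => (hphi p hp x).trans (bx_jco h hp x)
  have hbe : ∀ i m : SL3 l × Fin (2 ^ (j * t)),
      beI l L d j t P0 P1 B1 B2 eps ((enG l (2 ^ (j * t))).symm i) ((enG l (2 ^ (j * t))).symm m) =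
        ∑ k, matA (etaL l d j t) P0 P1 B1 B2 eps i k * matQ P1 B1 B2 eps k m := by
    intro i m
    unfold beI
    rw [dif_pos ⟨Fin.is_lt _, Fin.is_lt _⟩, Matrix.mul_apply]
    rw [← Equiv.sum_comp (enG l (2 ^ (j * t)))]
    refine Finset.sum_congr rfl fun k _ => ?_
    unfold mA mQ
    rw [Matrix.submatrix_apply, Matrix.of_apply, enN_symm]
    simp only [Fin.eta, Equiv.apply_symm_apply, enG_eq]
    congr
  refine
    { M_eq := rfl
      κ_eq := rfl
      Lw_pos := lenW_pos l t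
      nP_eq := hnP.symm
      nE_eq := hnE.symm
      κ_le := hnE.ge
      nE_le := hnE.le.trans (kap_le_pairs h hj)
      phi_add := ?_
      eb := heb
      ix := fun v b => rfl
      cG := ?_
      be := ?_
      dp := ?_
      sr := ?_
      wz := ?_
      wz_len := fun m => length_wzT _ _ _
      we := ?_
      we_len := ?_
      wv := ?_
      wv_len := fun m => length_wvT _ _ m }
  · intro p hp x y
    rw [hnP] at hp
    rw [hphi' p hp, hphi' p hp, hphi' p hp, jn_add h, Nat.testBit_xor]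
    cases (jn l d x).testBit p <;> cases (jn l d y).testBit p
    · simp
    · simp
    · simp
    · simp only [bne_self_eq_false, Bool.false_eq_true, if_false, if_true]
      exact (CharTwo.add_self_eq_zero (1 : Fl L)).symm
  · intro i
    show cGI l L d j t P0 P1 B1 B2 eps _ = _
    unfold cGI
    rw [dif_pos (Fin.is_lt _), Matrix.mulVec, dotProduct, ← Equiv.sum_comp (enG l (2 ^ (j * t)))]
    refine Finset.sum_congr rfl fun k _ => ?_
    unfold mA indI
    rw [Matrix.submatrix_apply]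
    simp only [Fin.eta, Equiv.apply_symm_apply]
    congr
  · intro i m
    exact hbe i m
  · intro p hp i m
    rw [hnP] at hp
    show beI l L d j t P0 P1 B1 B2 eps _ _ * _ = _
    rw [hbe, Finset.sum_mul]
    refine Finset.sum_congr rfl fun k _ => ?_
    rw [hphi' p hp, mul_assoc]
    unfold zN
    rw [enN_symm]
  · intro m
    exact srT_eq j t m
  · intro m x
    exact ptW_wzT hJ hG j t m x
  · intro i hi x
    rw [hnE] at hi
    rw [heb i hi, jco_symm_e h hi]
    exact ptW_weT hJ hG hi x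
  · intro i hi
    rw [hnE] at hi
    exact length_weT hi t
  · intro m x
    exact ptW_wvT hJ hG j t m x

end ok

/-! ### Polynomial time -/

section pt

variable {A : Set Word} {α : Type} [Enc α] {l L : α → ℕ} {d : α → Fin 8 → ℕ} {j t : ℕ}
  {P0 P1 : Submodule (ZMod 2) (Fin (2 ^ (j * t)) → ZMod 2)}
  {B1 B2 : Finset (Fin (2 ^ (j * t)))} {eps : ∀ a, Fl (L a)}

/-- Case distinction over the labels. -/
theorem FT_lb {β : Type} [Enc β] {L : β → ℕ} {f : ∀ a, Fin (2 ^ (j * t)) → Fl (L a)}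
    (hf : ∀ b, FT A L (fun a => f a b)) {i : β → ℕ} (hi : PT A i) :
    FT A L (fun a => f a (lbN j t (i a))) := by
  have h1 : FT A L (fun a => ∑ b : Fin (2 ^ (j * t)), if i a % 2 ^ (j * t) = b then f a b else 0) :=
    FT.sum_finset _ fun b _ => FT.ite (PT.eqNat (PT.mod hi (PT.const _)) (PT.const _)) (hf b)
      FT.zero
  refine h1.congr fun a => ?_
  rw [Finset.sum_eq_single (lbN j t (i a))]
  · rw [if_pos]
    rfl
  · intro b _ hb
    rw [if_neg]
    intro e
    exact hb (Fin.ext e.symm)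
  · intro hn
    exact absurd (Finset.mem_univ _) hn

theorem FT_matP {β : Type} [Enc β] {l L : β → ℕ} [∀ b, DecidableEq (SL3 (l b))]
    {v v' : ∀ b, SL3 (l b)} (hv : GT A l v) (hv' : GT A l v') (c c' : Fin (2 ^ (j * t))) :
    FT A L (fun b => matP (Fl (L b)) P0 B1 B2 (v b, c) (v' b, c')) := by
  unfold matP
  refine FT.ite (GT.eq hv' hv) ?_ FT.zero
  by_cases h1 : c ∈ B1
  · simp only [if_pos h1]
    exact FT.ofZ _
  · simp only [if_neg h1]
    by_cases h2 : c ∈ B2
    · simp only [if_pos h2]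
      exact FT.zero
    · simp only [if_neg h2]
      by_cases h3 : c' = c
      · exact FT.one.congr fun b => (if_pos h3).symm
      · exact FT.zero.congr fun b => (if_neg h3).symm

theorem FT_matQ {β : Type} [Enc β] {l L : β → ℕ} [∀ b, DecidableEq (SL3 (l b))]
    (hL : LPar A L) {eps : ∀ b, Fl (L b)} (he : FT A L eps)
    {v v' : ∀ b, SL3 (l b)} (hv : GT A l v) (hv' : GT A l v') (c c' : Fin (2 ^ (j * t))) :
    FT A L (fun b => matQ P1 B1 B2 (eps b) (v b, c) (v' b, c')) := by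
  unfold matQ
  by_cases h1 : c ∉ B1 ∧ c ∈ B2
  · have h2 : FT A L (fun b => if v' b = v b then
        algebraMap (ZMod 2) (Fl (L b)) (dualCk P1 B2 c c') * (if c' ∈ B1 then eps b else 1)
        else 0) := by
      refine FT.ite (GT.eq hv' hv) (FT.mul hL (FT.ofZ _) ?_) FT.zero
      by_cases h3 : c' ∈ B1
      · exact he.congr fun b => (if_pos h3).symm
      · exact FT.one.congr fun b => (if_neg h3).symm
    refine h2.congr fun b => ?_
    by_cases h3 : v' b = v b
    · rw [if_pos h3]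
      exact (if_pos (c := v' b = v b ∧ c ∉ B1 ∧ c ∈ B2) ⟨h3, h1.1, h1.2⟩).symm
    · rw [if_neg h3]
      exact (if_neg (c := v' b = v b ∧ c ∉ B1 ∧ c ∈ B2) fun h => h3 h.1).symm
  · refine FT.zero.congr fun b => ?_
    rw [if_neg fun h => h1 ⟨h.2.1, h.2.2⟩]

variable (P0 P1 B1 B2)

theorem JPar.GT_eta (h : JPar A l d) {β : Type} [Enc β] {u : β → α} (hu : PT A u)
    (b : Fin (2 ^ (j * t))) : GT A (fun c => l (u c)) (fun c => etaL (l (u c)) (d (u c)) j t b) :=
  JNum.GT_lab (N := jnum h) h.toGPar hu (fun i => h.JT_gen hu i) j t b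

theorem JPar.JT_bet (h : JPar A l d) {β : Type} [Enc β] {u : β → α} (hu : PT A u)
    (b : Fin (2 ^ (j * t))) : (jnum h).JT u (fun c => betL (l (u c)) (d (u c)) j t b) :=
  JNum.JT.lab (N := jnum h) h.toGPar hu (fun i => h.JT_gen hu i) j t b

/-- The system modulo the augmentation ideal. -/
theorem JPar.MT_mH (h : JPar A l d) (hL : LPar A L) (he : FT A L eps) :
    H933.MT A L (fun a => cG (l a) * 2 ^ (j * t))
      (fun a => mH (l a) (L a) (d a) j t P0 P1 B1 B2 (eps a)) := by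
  classical
  have hn : NPar A (fun a => cG (l a) * 2 ^ (j * t)) :=
    ⟨PT.mul (PT_cG h.toGPar) (PT.const _), (PBd_cG h.toGPar).mul (PBd.const _)⟩
  refine H933.MT.of hn (F := fun a i m => matH (etaL (l a) (d a) j t) P0 P1 B1 B2 (eps a)
    (enN (l a) j t i) (enN (l a) j t m)) ?_
  have hg : GPar A (fun p : α × ℕ × ℕ => l p.1) := h.toGPar.comp PT.fst'
  have hv : GT A (fun p : α × ℕ × ℕ => l p.1) (fun p => ge (l p.1) (p.2.1 / 2 ^ (j * t))) :=
    GT.ofNum hg (PT.div PT.snd'.fst (PT.const _))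
  have hv' : GT A (fun p : α × ℕ × ℕ => l p.1) (fun p => ge (l p.1) (p.2.2 / 2 ^ (j * t))) :=
    GT.ofNum hg (PT.div PT.snd'.snd (PT.const _))
  have hL' : LPar A (fun p : α × ℕ × ℕ => L p.1) := hL.comp PT.fst'
  have he' : FT A (fun p : α × ℕ × ℕ => L p.1) (fun p => eps p.1) := he.comp PT.fst'
  have h1 : ∀ c c' : Fin (2 ^ (j * t)), FT A (fun p : α × ℕ × ℕ => L p.1) (fun p =>
      matH (etaL (l p.1) (d p.1) j t) P0 P1 B1 B2 (eps p.1)
        (ge (l p.1) (p.2.1 / 2 ^ (j * t)), c) (ge (l p.1) (p.2.2 / 2 ^ (j * t)), c')) := by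
    intro c c'
    unfold matH
    exact FT.add (FT_matP hv hv' c c') (FT_matQ hL' he' hv
      (GT.mul hg hv' (h.GT_eta PT.fst' c')) c c')
  exact FT_lb (f := fun (p : α × ℕ × ℕ) c => matH (etaL (l p.1) (d p.1) j t) P0 P1 B1 B2
    (eps p.1) (ge (l p.1) (p.2.1 / 2 ^ (j * t)), c) (enN (l p.1) j t p.2.2))
    (fun c => FT_lb (f := fun (p : α × ℕ × ℕ) c' => matH (etaL (l p.1) (d p.1) j t) P0 P1 B1 B2
      (eps p.1) (ge (l p.1) (p.2.1 / 2 ^ (j * t)), c) (ge (l p.1) (p.2.2 / 2 ^ (j * t)), c'))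
      (h1 c) PT.snd'.snd) PT.snd'.fst

theorem JPar.MT_mQ (h : JPar A l d) (hL : LPar A L) (he : FT A L eps) :
    H933.MT A L (fun a => cG (l a) * 2 ^ (j * t))
      (fun a => mQ (l a) (L a) j t P1 B1 B2 (eps a)) := by
  classical
  have hn : NPar A (fun a => cG (l a) * 2 ^ (j * t)) :=
    ⟨PT.mul (PT_cG h.toGPar) (PT.const _), (PBd_cG h.toGPar).mul (PBd.const _)⟩
  refine H933.MT.of hn (F := fun a i m => matQ P1 B1 B2 (eps a)
    (enN (l a) j t i) (enN (l a) j t m)) ?_
  have hg : GPar A (fun p : α × ℕ × ℕ => l p.1) := h.toGPar.comp PT.fst'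
  have hv : GT A (fun p : α × ℕ × ℕ => l p.1) (fun p => ge (l p.1) (p.2.1 / 2 ^ (j * t))) :=
    GT.ofNum hg (PT.div PT.snd'.fst (PT.const _))
  have hv' : GT A (fun p : α × ℕ × ℕ => l p.1) (fun p => ge (l p.1) (p.2.2 / 2 ^ (j * t))) :=
    GT.ofNum hg (PT.div PT.snd'.snd (PT.const _))
  have hL' : LPar A (fun p : α × ℕ × ℕ => L p.1) := hL.comp PT.fst'
  have he' : FT A (fun p : α × ℕ × ℕ => L p.1) (fun p => eps p.1) := he.comp PT.fst'
  have h1 : ∀ c c' : Fin (2 ^ (j * t)), FT A (fun p : α × ℕ × ℕ => L p.1) (fun p =>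
      matQ P1 B1 B2 (eps p.1)
        (ge (l p.1) (p.2.1 / 2 ^ (j * t)), c) (ge (l p.1) (p.2.2 / 2 ^ (j * t)), c')) :=
    fun c c' => FT_matQ hL' he' hv hv' c c'
  exact FT_lb (f := fun (p : α × ℕ × ℕ) c => matQ P1 B1 B2
    (eps p.1) (ge (l p.1) (p.2.1 / 2 ^ (j * t)), c) (enN (l p.1) j t p.2.2))
    (fun c => FT_lb (f := fun (p : α × ℕ × ℕ) c' => matQ P1 B1 B2
      (eps p.1) (ge (l p.1) (p.2.1 / 2 ^ (j * t)), c) (ge (l p.1) (p.2.2 / 2 ^ (j * t)), c'))
      (h1 c) PT.snd'.snd) PT.snd'.fst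

theorem JPar.MT_mA (h : JPar A l d) (hL : LPar A L) (he : FT A L eps) :
    H933.MT A L (fun a => cG (l a) * 2 ^ (j * t))
      (fun a => mA (l a) (L a) (d a) j t P0 P1 B1 B2 (eps a)) := by
  have hn : NPar A (fun a => cG (l a) * 2 ^ (j * t)) :=
    ⟨PT.mul (PT_cG h.toGPar) (PT.const _), (PBd_cG h.toGPar).mul (PBd.const _)⟩
  exact (H933.MT.inv hL hn (h.MT_mH P0 P1 B1 B2 hL he)).congr fun a => (mA_eq _ _ _ _ _ _ _ _ _ _).symm

/-- The coefficients of the right hand side in polynomial time. -/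
theorem JPar.FT_cG (h : JPar A l d) (hL : LPar A L) (he : FT A L eps) {β : Type} [Enc β]
    {u : β → α} (hu : PT A u) {m : β → ℕ} (hm : PT A m) :
    FT A (fun b => L (u b)) (fun b =>
      (kpI (l (u b)) (L (u b)) (d (u b)) j t P0 P1 B1 B2 (eps (u b))).cG (m b)) := by
  have hn : NPar A (fun a => cG (l a) * 2 ^ (j * t)) :=
    ⟨PT.mul (PT_cG h.toGPar) (PT.const _), (PBd_cG h.toGPar).mul (PBd.const _)⟩
  have hi : FT A (fun p : α × ℕ => L p.1) (fun p => indI (L p.1) j t B1 B2 p.2) := by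
    unfold indI
    refine FT_lb (f := fun (p : α × ℕ) c => if c ∉ B1 ∧ c ∉ B2 then (1 : Fl (L p.1)) else 0)
      (fun c => ?_) PT.snd'
    by_cases h1 : c ∉ B1 ∧ c ∉ B2
    · exact FT.one.congr fun p => (if_pos h1).symm
    · exact FT.zero.congr fun p => (if_neg h1).symm
  have h1 : H933.VT A L (fun a => cG (l a) * 2 ^ (j * t)) (fun a =>
      (mA (l a) (L a) (d a) j t P0 P1 B1 B2 (eps a)).mulVec
        (fun i => indI (L a) j t B1 B2 i)) :=
    H933.VT.mulVec hL hn (h.MT_mA P0 P1 B1 B2 hL he)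
      (H933.VT.of hn (F := fun a i => indI (L a) j t B1 B2 i) hi)
  have h2 : H933.VT A (fun b => L (u b)) (fun b => cG (l (u b)) * 2 ^ (j * t)) (fun b =>
      (mA (l (u b)) (L (u b)) (d (u b)) j t P0 P1 B1 B2 (eps (u b))).mulVec
        (fun i => indI (L (u b)) j t B1 B2 i)) :=
    PT.comp (g := fun a => tabV ((mA (l a) (L a) (d a) j t P0 P1 B1 B2 (eps a)).mulVec
        (fun i => indI (L a) j t B1 B2 i))) h1 hu
  exact H933.VT.entryF h2 hm

theorem JPar.FT_be (h : JPar A l d) (hL : LPar A L) (he : FT A L eps) {β : Type} [Enc β]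
    {u : β → α} (hu : PT A u) {m i : β → ℕ} (hm : PT A m) (hi : PT A i) :
    FT A (fun b => L (u b)) (fun b =>
      (kpI (l (u b)) (L (u b)) (d (u b)) j t P0 P1 B1 B2 (eps (u b))).be (m b) (i b)) := by
  have hn : NPar A (fun a => cG (l a) * 2 ^ (j * t)) :=
    ⟨PT.mul (PT_cG h.toGPar) (PT.const _), (PBd_cG h.toGPar).mul (PBd.const _)⟩
  have h1 := H933.MT.mul hL hn (h.MT_mA P0 P1 B1 B2 hL he) (h.MT_mQ P1 B1 B2 hL he)
  have h2 : H933.MT A (fun b => L (u b)) (fun b => cG (l (u b)) * 2 ^ (j * t)) (fun b =>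
      mA (l (u b)) (L (u b)) (d (u b)) j t P0 P1 B1 B2 (eps (u b)) *
        mQ (l (u b)) (L (u b)) j t P1 B1 B2 (eps (u b))) :=
    PT.comp (g := fun a => tabM (mA (l a) (L a) (d a) j t P0 P1 B1 B2 (eps a) *
        mQ (l a) (L a) j t P1 B1 B2 (eps a))) h1 hu
  exact H933.MT.entryF h2 hm hi

/-- The translations of the right checks. -/
theorem JPar.JT_zN (h : JPar A l d) {β : Type} [Enc β] {u : β → α} (hu : PT A u) {m : β → ℕ}
    (hm : PT A m) : (jnum h).JT u (fun b => zN (l (u b)) (d (u b)) j t (m b)) := by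
  have h1 : PT A (fun b => m b % 2 ^ (j * t)) := PT.mod hm (PT.const _)
  have h2 : (jnum h).ST u (fun b => labP (lett (l (u b)) (d (u b))) j t (m b % 2 ^ (j * t))) :=
    JNum.ST.labN h.toGPar hu (fun i => h.JT_gen hu i) j t h1
  have h3 := JNum.JT.smul hu (GT.mul (h.toGPar.comp hu) (GT.ofNum (h.toGPar.comp hu)
    (PT.div hm (PT.const (2 ^ (j * t))))) (GT.inv (h.toGPar.comp hu) (h2.snd hu))) (h2.fst hu)
  refine h3.congr fun b => ?_
  unfold zN zB enN etaL betL
  have e := lab_eq (l (u b)) (d (u b)) j t (lbN j t (m b))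
  simp only
  rw [e]
  rfl

theorem JPar.FT_dp (h : JPar A l d) (hL : LPar A L) (he : FT A L eps) {β : Type} [Enc β]
    {u : β → α} (hu : PT A u) {p m i : β → ℕ} (hp : PT A p) (hm : PT A m) (hi : PT A i) :
    FT A (fun b => L (u b)) (fun b =>
      (kpI (l (u b)) (L (u b)) (d (u b)) j t P0 P1 B1 B2 (eps (u b))).dp (p b) (m b) (i b)) := by
  have hz := h.JT_zN (j := j) (t := t) hu hi
  refine FT.mul (hL.comp hu) (h.FT_be P0 P1 B1 B2 hL he hu hm hi) (FT.ite ?_ FT.one FT.zero)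
  exact S.PT_decideBool (PT.testBit hz hp)

end pt

end Vale.Agent.P330.H675
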