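import Vale.Agent.P330.H675.JNum
import Vale.Agent.P330.H143.SL3
import Vale.Agent.P330.W.H604.Inst

/-!
# P330, block GRP: words for the elements of `SL₃(Fl l)` and for the translations

`wordG l x`: a word in the twelve letters for the element with the number `x` of `SL₃(Fl l)`.
`prW l d w`: the product of the word `w` in the forty letters `H604.lett l d`, as a pair.
-/

namespace Vale.Agent.P330.H675

open Vale.Agent.Lib.PolyTime Vale.Agent.P330.H933 Vale.Agent.P330.H604
open Matrix (SpecialLinearGroup)

/-! ### Generation -/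

/-- A subset which contains `1` and is closed under left multiplication by the letters is
everything. -/
theorem reach_elt (l : ℕ) (Y : Set (SL3 l)) (h1 : 1 ∈ Y)
    (hY : ∀ y ∈ Y, ∀ k : Fin 12, elt l k * y ∈ Y) (g : SL3 l) : g ∈ Y := by
  classical
  let H : Subgroup (SL3 l) :=
    { carrier := {g | ∀ y, g * y ∈ Y ↔ y ∈ Y}
      one_mem' := fun y => by rw [one_mul]
      mul_mem' := fun {g h} hg hh y => by rw [mul_assoc, hg, hh]
      inv_mem' := fun {g} hg y => by rw [← hg, mul_inv_cancel_left] }
  have hel : ∀ k, elt l k ∈ H := by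
    intro k y
    refine ⟨fun h => ?_, fun h => hY y h k⟩
    have := hY _ h k
    rwa [← mul_assoc, elt_mul_self, one_mul] at this
  have hel1 : ∀ i j : Fin 3, i ≠ j → tv i j (1 : Fl l) ∈ H := by
    intro i j hij
    obtain ⟨k, hk⟩ := exists_elt_one l i j hij
    have e : tv i j (1 : Fl l) = elt l k := by
      rw [hk]
      apply Subtype.ext
      rw [coe_el, tv_coe hij]
    rw [e]
    exact hel k
  have hel2 : ∀ i j : Fin 3, i ≠ j → tv i j (th l) ∈ H := by
    intro i j hij
    obtain ⟨k, hk⟩ := exists_elt_th l i j hij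
    have e : tv i j (th l) = elt l k := by
      rw [hk]
      apply Subtype.ext
      rw [coe_el, tv_coe hij]
    rw [e]
    exact hel k
  have hall : g ∈ H := by
    by_contra hg
    have h2 := H143.gauss (K := Fl l) (fun g => if g ∈ H then 0 else 1) 0
      (fun g h => by
        by_cases hg : g ∈ H
        · by_cases hh : h ∈ H
          · simp [hg, hh, H.mul_mem hg hh]
          · have : g * h ∉ H := fun e => hh ((H.mul_mem_cancel_left hg).1 e)
            simp [hg, hh, this]
        · by_cases hh : h ∈ H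
          · have : g * h ∉ H := fun e => hg ((H.mul_mem_cancel_right hh).1 e)
            simp [hg, hh, this]
          · have : (if g * h ∈ H then (0 : ℝ) else 1) ≤ 1 := by split_ifs <;> norm_num
            simp only [hg, hh, if_false]
            linarith)
      (fun i j hij c => by
        have h3 : H143.tv hij c = tv i j c := by
          apply Subtype.ext
          rw [tv_coe hij]
          rfl
        have h4 : H143.tv hij c ∈ H := by
          rw [h3]
          exact tv_mem (genBy_th l) H hel1 hel2 i j c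
        simp [h4]) le_rfl g
    simp only [hg, if_false] at h2
    norm_num at h2
  have := (hall 1).2 h1
  rwa [mul_one] at this

/-- the element with the number `a` of the twelve letters -/
noncomputable def eltN (l a : ℕ) : SL3 l := if h : a < 12 then elt l ⟨a, h⟩ else 1

/-- The letters are the elementary matrices. -/
theorem lg_ltr (l : ℕ) {n : ℕ} (hn : n < 12) : lg (th l) (ltr n) = eltN l n := by
  unfold eltN
  rw [dif_pos hn]
  apply Subtype.ext
  have h1 := ltr_ne hn
  unfold lg
  rw [tv_coe h1]
  interval_cases n <;> rfl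

theorem eltN_mul_self (l a : ℕ) : eltN l a * eltN l a = 1 := by
  unfold eltN
  split_ifs
  · exact elt_mul_self l _
  · rw [one_mul]

/-- left multiplication by a letter, on numbers -/
noncomputable def gact (l a x : ℕ) : ℕ := gn l (eltN l a * ge l x)

/-- The table of the elements of the group with words. -/
noncomputable def gtab (l : ℕ) : List (ℕ × List ℕ) :=
  wtab (gact l) (List.range 12) (gn l 1) (cG l)

theorem gn_injective (l : ℕ) : Function.Injective (gn l) := fun _ _ h => gn_inj h

open Classical in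
theorem gtab_eq (l : ℕ) : gtab l =
    (wtab (fun n (g : SL3 l) => eltN l n * g) (List.range 12) 1 (cG l)).map
      fun p => (gn l p.1, p.2) := by
  unfold gtab
  have := wtab_map (gn l) (gn_injective l) (g := fun n (g : SL3 l) => eltN l n * g)
    (g' := gact l) (List.range 12) (fun a _ x => by unfold gact; rw [ge_gn]) 1 (cG l)
  convert this

/-- Every element is in the table. -/
theorem mem_gtab {l : ℕ} (g : SL3 l) : ∃ w, (gn l g, w) ∈ gtab l := by
  classical
  rw [gtab_eq]
  have h : g ∈ (wtab (fun n (g : SL3 l) => eltN l n * g) (List.range 12) 1 (cG l)).map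
      Prod.fst := by
    apply mem_wtab _ _ _ _ (card_SL3 l).le
    intro Y h0 hY
    apply reach_elt l Y h0
    intro y hy k
    have := hY y hy k (List.mem_range.2 k.2)
    unfold eltN at this
    rwa [dif_pos k.2] at this
  rw [List.mem_map] at h
  obtain ⟨p, hp, rfl⟩ := h
  exact ⟨p.2, List.mem_map.2 ⟨p, hp, rfl⟩⟩

theorem wact_eltN (l : ℕ) {w : List ℕ} (hw : ∀ n ∈ w, n < 12) (g : SL3 l) :
    wact (fun n (g : SL3 l) => eltN l n * g) w g = wgN (th l) w * g := by
  induction w with
  | nil => simp [wact, wgN]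
  | cons a w ih =>
    rw [wact_cons, ih fun n hn => hw n (List.mem_cons_of_mem _ hn), wgN_cons,
      lg_ltr l (hw a List.mem_cons_self), mul_assoc]

theorem gtab_spec {l : ℕ} {p : ℕ × List ℕ} (hp : p ∈ gtab l) :
    wgN (th l) p.2 = ge l p.1 ∧ (∀ n ∈ p.2, n < 12) ∧ p.2.length ≤ cG l := by
  classical
  rw [gtab_eq] at hp
  obtain ⟨q, hq, rfl⟩ := List.mem_map.1 hp
  have h := wtab_inv (fun n (g : SL3 l) => eltN l n * g) (List.range 12) 1 (cG l)
  have h1 : ∀ n ∈ q.2, n < 12 := fun n hn => List.mem_range.1 (h.sub q hq n hn)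
  refine ⟨?_, h1, h.len q hq⟩
  have h2 := h.act q hq
  rw [wact_eltN l h1, mul_one] at h2
  rw [h2]
  exact (ge_gn _).symm

/-- a word for the element with the number `x` -/
noncomputable def wordG (l x : ℕ) : List ℕ :=
  (((gtab l).filter fun p => decide (p.1 = x)).headD (0, [])).2

theorem wordG_mem {l x : ℕ} (hx : x < cG l) : (x, wordG l x) ∈ gtab l := by
  obtain ⟨w, hw⟩ := mem_gtab (ge l x)
  rw [gn_ge hx] at hw
  have h1 : (x, w) ∈ (gtab l).filter fun p => decide (p.1 = x) := by
    rw [List.mem_filter]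
    exact ⟨hw, by simp⟩
  unfold wordG
  rcases e : (gtab l).filter fun p => decide (p.1 = x) with _ | ⟨p, L⟩
  · rw [e] at h1
    simp at h1
  · have h2 : p ∈ (gtab l).filter fun p => decide (p.1 = x) := by
      rw [e]
      exact List.mem_cons_self
    rw [List.mem_filter] at h2
    have h3 : p.1 = x := by simpa using h2.2
    rw [e, List.headD_cons]
    subst h3
    exact h2.1

theorem wordG_spec {l : ℕ} (v : SL3 l) : wgN (th l) (wordG l (gn l v)) = v ∧
    (∀ n ∈ wordG l (gn l v), n < 12) ∧ (wordG l (gn l v)).length ≤ cG l := by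
  have h := gtab_spec (wordG_mem (gn_lt v))
  rw [ge_gn] at h
  exact h

theorem wgN_append {K : Type*} [Field K] (θ : K) (w w' : List ℕ) :
    wgN θ (w ++ w') = wgN θ w * wgN θ w' := by
  unfold wgN
  rw [List.map_append, List.prod_append]

theorem wgN_reverse {l : ℕ} {w : List ℕ} (hw : ∀ n ∈ w, n < 12) :
    wgN (th l) w.reverse = (wgN (th l) w)⁻¹ := by
  induction w with
  | nil => simp [wgN]
  | cons a w ih =>
    rw [List.reverse_cons, wgN_append, ih fun n hn => hw n (List.mem_cons_of_mem _ hn),
      wgN_cons (w := w), mul_inv_rev]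
    congr 1
    have h1 : wgN (th l) [a] = eltN l a := by
      rw [wgN_cons, wgN_nil, mul_one, lg_ltr l (hw a List.mem_cons_self)]
    rw [h1, lg_ltr l (hw a List.mem_cons_self)]
    exact eq_inv_of_mul_eq_one_left (eltN_mul_self l a)

/-! ### Words in all letters -/

section Words

variable {l : ℕ} {d : Fin 8 → ℕ}

/-- the letter with the number `c`, as a pair: `c < 12` elementary matrices, `12 ≤ c < 20`
generators of `J`, otherwise the neutral element -/
noncomputable def ltP (l : ℕ) (d : Fin 8 → ℕ) (c : ℕ) : JJ (Fl l) d × SL3 l :=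
  if h : c < 40 then lett l d ⟨c, h⟩ else (0, 1)

theorem ltP_G {c : ℕ} (hc : c < 12) : ltP l d c = (0, eltN l c) := by
  unfold ltP lett eltN
  rw [dif_pos (by omega), dif_pos hc, dif_pos hc]

theorem ltP_J {i : ℕ} (hi : i < 8) : ltP l d (12 + i) = (gen (Fl l) d ⟨i, hi⟩, 1) := by
  unfold ltP lett
  rw [dif_pos (by omega), dif_neg (by simp), dif_pos (by simp; omega)]
  congr 2
  exact Fin.ext (by simp)

theorem ltP_one {c : ℕ} (hc : 20 ≤ c) : ltP l d c = (0, 1) := by
  unfold ltP lett
  split_ifs with h1 h2 h3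
  · simp at h2; omega
  · simp at h3; omega
  · rfl
  · rfl

/-- the product of the letters of a word -/
noncomputable def prW (l : ℕ) (d : Fin 8 → ℕ) (w : List ℕ) : JJ (Fl l) d × SL3 l :=
  w.foldr (fun c p => mulP (ltP l d c) p) (0, 1)

theorem prW_nil : prW l d [] = (0, 1) := rfl

theorem prW_cons (c : ℕ) (w : List ℕ) : prW l d (c :: w) = mulP (ltP l d c) (prW l d w) := rfl

theorem prW_append (w w' : List ℕ) : prW l d (w ++ w') = mulP (prW l d w) (prW l d w') := by
  induction w with
  | nil => rw [List.nil_append, prW_nil, one_mulP]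
  | cons c w ih => rw [List.cons_append, prW_cons, prW_cons, ih, mulP_assoc]

theorem prW_G {w : List ℕ} (hw : ∀ n ∈ w, n < 12) : prW l d w = (0, wgN (th l) w) := by
  induction w with
  | nil => rfl
  | cons c w ih =>
    have hc := hw c List.mem_cons_self
    rw [prW_cons, ih fun n hn => hw n (List.mem_cons_of_mem _ hn), ltP_G hc, wgN_cons,
      lg_ltr l hc]
    simp [mulP]

theorem prW_replicate (k : ℕ) {c : ℕ} (hc : 20 ≤ c) : prW l d (List.replicate k c) = (0, 1) := by
  induction k with
  | zero => rfl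
  | succ k ih => rw [List.replicate_succ, prW_cons, ih, ltP_one hc, one_mulP]

/-- the word with copies up to the length `L` -/
def padW (L : ℕ) (w : List ℕ) : List ℕ := w ++ List.replicate (L - w.length) 20

theorem prW_padW (L : ℕ) (w : List ℕ) : prW l d (padW L w) = prW l d w := by
  unfold padW
  rw [prW_append, prW_replicate _ le_rfl, mulP_one]

theorem length_padW {L : ℕ} {w : List ℕ} (h : w.length ≤ L) : (padW L w).length = L := by
  unfold padW
  rw [List.length_append, List.length_replicate]
  omega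

/-- the word of the label with the number `b` -/
def labW (j : ℕ) : ℕ → ℕ → List ℕ
  | 0, _ => []
  | t + 1, b => (b % 2 ^ j) :: labW j t (b / 2 ^ j)

theorem prW_labW (j t b : ℕ) : prW l d (labW j t b) = labP (lett l d) j t b := by
  induction t generalizing b with
  | zero => rfl
  | succ t ih =>
    show mulP (ltP l d (b % 2 ^ j)) (prW l d (labW j t (b / 2 ^ j))) = _
    rw [ih]
    rfl

theorem length_labW (j t b : ℕ) : (labW j t b).length = t := by
  induction t generalizing b with
  | zero => rfl
  | succ t ih =>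
    show (labW j t (b / 2 ^ j)).length + 1 = t + 1
    rw [ih]

/-- word for the element with the number `x` of `SL₃` -/
theorem prW_wordG (v : SL3 l) : prW l d (wordG l (gn l v)) = (0, v) := by
  obtain ⟨h1, h2, -⟩ := wordG_spec v
  rw [prW_G h2, h1]

/-- word for the translation by the basis vector with the number `j` -/
noncomputable def weW (l : ℕ) (d : Fin 8 → ℕ) (j : ℕ) : List ℕ :=
  (bj l d j).2.2 ++ (12 + (bj l d j).1 % 8) :: (bj l d j).2.2.reverse

theorem prW_weW {j : ℕ} (hj : j < kap l d) : prW l d (weW l d j) = (ebas l d j, 1) := by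
  have h1 := bj_lt hj
  unfold weW
  rw [prW_append, prW_cons, prW_G h1, prW_G (w := (bj l d j).2.2.reverse)
    (fun n hn => h1 n (List.mem_reverse.1 hn)), ltP_J (Nat.mod_lt _ (by norm_num)),
    wgN_reverse h1, ebas_eq hj]
  unfold mulP
  simp only [smul_zero, add_zero, zero_add, one_mul, mul_inv_cancel]
  rfl

theorem length_weW {j : ℕ} (hj : j < kap l d) :
    (weW l d j).length ≤ 2 * 2 ^ (eF l * 3) + 1 := by
  have h := bj_len hj
  unfold weW
  simp only [List.length_append, List.length_cons, List.length_reverse]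
  omega

/-- word for the translation by `(v * (eta c)⁻¹) • bet c`, where `(bet c, eta c)` is the label
with the number `c` -/
noncomputable def wzW (l : ℕ) (d : Fin 8 → ℕ) (j t : ℕ) (v : SL3 l) (c : ℕ) : List ℕ :=
  wordG l (gn l (v * (labP (lett l d) j t c).2⁻¹)) ++ labW j t c ++ wordG l (gn l v⁻¹)

theorem prW_wzW (j t : ℕ) (v : SL3 l) (c : ℕ) : prW l d (wzW l d j t v c) =
    ((v * (labP (lett l d) j t c).2⁻¹) • (labP (lett l d) j t c).1, 1) := by
  unfold wzW
  rw [prW_append, prW_append, prW_wordG, prW_wordG, prW_labW]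
  simp [mulP]

theorem length_wzW (j t : ℕ) (v : SL3 l) (c : ℕ) :
    (wzW l d j t v c).length ≤ 2 * cG l + t := by
  have h1 := (wordG_spec (v * (labP (lett l d) j t c).2⁻¹)).2.2
  have h2 := (wordG_spec v⁻¹).2.2
  unfold wzW
  simp only [List.length_append, length_labW]
  omega

/-- the uniform length of the words -/
noncomputable def lenW (l t : ℕ) : ℕ := 2 * cG l + t + (2 * 2 ^ (eF l * 3) + 1)

/-! ### Words acting on functions -/

variable {F : Type*}

/-- composition with a letter -/
noncomputable def opC (l : ℕ) (d : Fin 8 → ℕ) (c : ℕ) (u : JJ (Fl l) d → F) : JJ (Fl l) d → F :=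
  fun x => u ((ltP l d c).1 + (ltP l d c).2 • x)

theorem opC_G {c : ℕ} (hc : c < 12) (u : JJ (Fl l) d → F) :
    opC l d c u = fun x => u (elt l ⟨c, hc⟩ • x) := by
  funext x
  unfold opC
  rw [ltP_G hc]
  unfold eltN
  rw [dif_pos hc, zero_add]

theorem opC_J {i : ℕ} (hi : i < 8) (u : JJ (Fl l) d → F) :
    opC l d (12 + i) u = fun x => u (x + gen (Fl l) d ⟨i, hi⟩) := by
  funext x
  unfold opC
  rw [ltP_J hi, one_smul, add_comm]

theorem opC_one {c : ℕ} (hc : 20 ≤ c) (u : JJ (Fl l) d → F) : opC l d c u = u := by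
  funext x
  unfold opC
  rw [ltP_one hc, zero_add, one_smul]

/-- **The action of a word on functions.** -/
theorem foldl_opC (w : List ℕ) (u : JJ (Fl l) d → F) :
    w.foldl (fun u c => opC l d c u) u = fun x => u ((prW l d w).1 + (prW l d w).2 • x) := by
  induction w generalizing u with
  | nil =>
    funext x
    simp [prW]
  | cons c w ih =>
    rw [List.foldl_cons, ih]
    funext x
    unfold opC
    rw [prW_cons]
    simp only [mulP]
    rw [smul_add, mul_smul, add_assoc]

theorem foldl_wordG (v : SL3 l) (L : ℕ) (u : JJ (Fl l) d → F) :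
    (padW L (wordG l (gn l v))).foldl (fun u c => opC l d c u) u = fun x => u (v • x) := by
  rw [foldl_opC, prW_padW, prW_wordG]
  simp

theorem foldl_weW {j : ℕ} (hj : j < kap l d) (L : ℕ) (u : JJ (Fl l) d → F) :
    (padW L (weW l d j)).foldl (fun u c => opC l d c u) u = fun x => u (x + ebas l d j) := by
  rw [foldl_opC, prW_padW, prW_weW hj]
  simp [add_comm]

theorem foldl_wzW (j t : ℕ) (v : SL3 l) (c : ℕ) (L : ℕ) (u : JJ (Fl l) d → F) :
    (padW L (wzW l d j t v c)).foldl (fun u c => opC l d c u) u =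
      fun x => u (x + (v * (labP (lett l d) j t c).2⁻¹) • (labP (lett l d) j t c).1) := by
  rw [foldl_opC, prW_padW, prW_wzW]
  simp [add_comm]

end Words

/-! ### Polynomial time -/

section PTW

variable {A : Set Word} {α : Type} [Enc α] {l : α → ℕ}

theorem GT_eltN (h : GPar A l) {c : α → ℕ} (hc : PT A c) : GT A l (fun a => eltN (l a) (c a)) := by
  refine (PT_cases (f := fun (i : Fin 12) a => gn (l a) (elt (l a) i)) 12 (fun i => GT.elt h i)
    (GT.one h) hc).congr fun a => ?_
  unfold eltN
  beta_reduce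
  split_ifs <;> rfl

theorem PT_gtab (h : GPar A l) : PT A (fun a => gtab (l a)) := by
  have h' : GPar A (fun p : α × ℕ × ℕ => l p.1) := h.comp PT.fst'
  exact PT_wtab (g := fun a => gact (l a)) 12
    (GT.mul h' (GT_eltN h' PT.snd'.fst) (GT.ofNum h' PT.snd'.snd)) (PBd_cG h)
    (fun a b x => gn_lt _) (GT.one h) (fun a => gn_lt _) (PT_cG h) (PBd_cG h)

theorem PT_wordG (h : GPar A l) {x : α → ℕ} (hx : PT A x) : PT A (fun a => wordG (l a) (x a)) := by
  unfold wordG
  refine PT.snd (PT.headD (PT.filter (f := fun a (p : ℕ × List ℕ) => decide (p.1 = x a))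
    (PT_gtab h) ?_) (PT.const _))
  exact PT.eqNat PT.snd'.fst (hx.comp PT.fst')

/-- Words of group elements. -/
theorem PT_wordG' (h : GPar A l) {v : ∀ a, SL3 (l a)} (hv : GT A l v) :
    PT A (fun a => wordG (l a) (gn (l a) (v a))) := PT_wordG h hv

theorem PT_padW {L : α → ℕ} {w : α → List ℕ} (hL : PT A L) (hLb : PBd L) (hw : PT A w) :
    PT A (fun a => padW (L a) (w a)) := by
  unfold padW
  exact hw.append (PT.replicate (PT.sub hL (PT.length hw))
    (hLb.mono fun a => Nat.sub_le _ _) (PT.const 20))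

theorem PT_labW (j t : ℕ) {b : α → ℕ} (hb : PT A b) : PT A (fun a => labW j t (b a)) := by
  induction t generalizing b with
  | zero => exact PT.const []
  | succ t ih =>
    exact PT.cons (PT.mod hb (PT.const (2 ^ j))) (ih (PT.div hb (PT.const (2 ^ j))))

theorem PT_lenW (h : GPar A l) (t : ℕ) : PT A (fun a => lenW (l a) t) := by
  unfold lenW
  have h3 : PT A (fun a => 2 ^ (eF (l a) * 3)) :=
    PT.pow (PT.const 2) (PT.mul h.toLPar.eF (PT.const 3)) (h.toLPar.eFbd.mul (PBd.const 3))
  exact PT.add (PT.add (PT.mul (PT.const 2) (PT_cG h)) (PT.const t))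
    (PT.add (PT.mul (PT.const 2) h3) (PT.const 1))

theorem PBd_lenW (h : GPar A l) (t : ℕ) : PBd (fun a => lenW (l a) t) := by
  unfold lenW
  have h1 := PBd_cG h
  have h3b : PBd (fun a => 2 ^ (eF (l a) * 3)) :=
    (PBd.pow h.qbd 3).mono fun a => by rw [← pow_mul]
  fun_prop

variable {d : α → Fin 8 → ℕ}

theorem JPar.PT_weW (h : JPar A l d) {j : α → ℕ} (hj : PT A j) :
    PT A (fun a => weW (l a) (d a) (j a)) := by
  unfold weW
  have hb := h.PT_bj hj
  exact hb.snd.snd.append (PT.cons (PT.add (PT.const 12) (PT.mod hb.fst (PT.const 8)))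
    hb.snd.snd.reverse)

theorem JPar.gen_num (h : JPar A l d) (i : Fin 8) :
    PT A (fun a => jn (l a) (d a) (gen (Fl (l a)) (d a) i)) := by
  refine (h.jn_ven (i := fun _ => (i : ℕ)) (PT.const _) (VT.e1 h.toLPar)).congr fun a => ?_
  rw [fr_fin]
  rfl

/-- The generators of `J`, in the form of `H604`. -/
theorem JPar.JT_gen (h : JPar A l d) {β : Type} [Enc β] {u : β → α} (hu : PT A u) (i : Fin 8) :
    (jnum h).JT u (fun b => gen (Fl (l (u b))) (d (u b)) i) :=
  PT.comp (g := fun a => jn (l a) (d a) (gen (Fl (l a)) (d a) i)) (h.gen_num i) hu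

/-- The labels. -/
theorem JPar.ST_lab (h : JPar A l d) (j t : ℕ) {c : α → ℕ} (hc : PT A c) :
    (jnum h).ST (fun a => a) (fun a => labP (lett (l a) (d a)) j t (c a)) :=
  JNum.ST.labN h.toGPar PT.id (fun i => h.JT_gen PT.id i) j t hc

theorem JPar.PT_wzW (h : JPar A l d) (j t : ℕ) {v : ∀ a, SL3 (l a)} (hv : GT A l v) {c : α → ℕ}
    (hc : PT A c) : PT A (fun a => wzW (l a) (d a) j t (v a) (c a)) := by
  have h1 : GT A l (fun a => (labP (lett (l a) (d a)) j t (c a)).2) :=
    (h.ST_lab j t hc).snd PT.id
  unfold wzW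
  exact ((PT_wordG h.toGPar (GT.mul h.toGPar hv (GT.inv h.toGPar h1))).append
    (PT_labW j t hc)).append (PT_wordG h.toGPar (GT.inv h.toGPar hv))

end PTW

end Vale.Agent.P330.H675
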