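import Mathlib

/-!
# P330, block GRP, part J: greedy choice of a basis of an elementary abelian 2-group

`greedy v L`: the list of all elements of the span and the list of the chosen candidates, if the
candidates of `L` are added one after the other.  The element number `n` of the span is
`comb v B n`, the sum of the chosen vectors with a number `j` such that the bit `j` of `n` is set.
-/

namespace Vale.Agent.P330.H675

variable {J : Type*} [AddCommGroup J] {C : Type*}

/-- the combination of the vectors of a list given by the bits of a number -/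
def comb (v : C → J) : List C → ℕ → J
  | [], _ => 0
  | c :: B, n => (if n.testBit 0 = true then v c else 0) + comb v B (n / 2)

theorem comb_append (v : C → J) (B B' : List C) (n : ℕ) :
    comb v (B ++ B') n = comb v B n + comb v B' (n / 2 ^ B.length) := by
  induction B generalizing n with
  | nil => simp [comb]
  | cons c B ih =>
    rw [List.cons_append, comb, comb, ih, List.length_cons, pow_succ', Nat.div_div_eq_div_mul,
      add_assoc]

theorem comb_eq_sum (v : C → J) (B : List C) (n : ℕ) :
    comb v B n = ∑ j : Fin B.length, if n.testBit j = true then v (B.get j) else 0 := by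
  induction B generalizing n with
  | nil => simp [comb]
  | cons c B ih =>
    rw [comb, ih]
    rw [show (∑ j : Fin (c :: B).length, if n.testBit j = true then v ((c :: B).get j) else 0) =
      ∑ j : Fin (B.length + 1), if n.testBit j = true then v ((c :: B).get j) else 0 from rfl,
      Fin.sum_univ_succ]
    congr 1
    apply Finset.sum_congr rfl
    intro j _
    rw [Fin.val_succ, Nat.testBit_succ]
    rfl

theorem comb_xor (hJ : ∀ x : J, x + x = 0) (v : C → J) (B : List C) (n m : ℕ) :
    comb v B (n ^^^ m) = comb v B n + comb v B m := by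
  induction B generalizing n m with
  | nil => simp [comb]
  | cons c B ih =>
    rw [comb, comb, comb, Nat.xor_div_two, ih, Nat.testBit_xor]
    have h := hJ (v c)
    cases n.testBit 0 <;> cases m.testBit 0
    · simp
    · simp; abel
    · simp; abel
    · simp only [bne_self_eq_false, Bool.false_eq_true, if_false, if_true]
      have : v c + comb v B (n / 2) + (v c + comb v B (m / 2)) =
          (v c + v c) + (comb v B (n / 2) + comb v B (m / 2)) := by abel
      rw [this, h]

theorem comb_zero (v : C → J) (B : List C) : comb v B 0 = 0 := by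
  induction B with
  | nil => rfl
  | cons c B ih => rw [comb, Nat.zero_div, ih]; simp

/-- only the bits with numbers less than the length of the list matter -/
theorem comb_mod (v : C → J) (B : List C) (n : ℕ) :
    comb v B (n % 2 ^ B.length) = comb v B n := by
  rw [comb_eq_sum, comb_eq_sum]
  apply Finset.sum_congr rfl
  intro j _
  rw [Nat.testBit_mod_two_pow]
  simp [j.2]

/-- Linear combination with coefficients in `ZMod 2`. -/
def lc (v : C → J) (B : List C) (x : Fin B.length → ZMod 2) : J :=
  ∑ j, if x j = 1 then v (B.get j) else 0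

theorem lc_add (hJ : ∀ x : J, x + x = 0) (v : C → J) (B : List C) (x y : Fin B.length → ZMod 2) :
    lc v B (x + y) = lc v B x + lc v B y := by
  unfold lc
  rw [← Finset.sum_add_distrib]
  apply Finset.sum_congr rfl
  intro j _
  rw [Pi.add_apply]
  have key : ∀ a b : ZMod 2, (if a + b = 1 then v (B.get j) else 0) =
      (if a = 1 then v (B.get j) else 0) + (if b = 1 then v (B.get j) else 0) := by
    intro a b
    have h2 : ∀ c : ZMod 2, c = 0 ∨ c = 1 := by decide
    rcases h2 a with rfl | rfl <;> rcases h2 b with rfl | rfl
    · simp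
    · simp
    · simp
    · rw [show (1 : ZMod 2) + 1 = 0 from rfl]
      simp [hJ]
  exact key _ _

theorem lc_bits (v : C → J) (B : List C) (n : ℕ) :
    lc v B (fun j => if n.testBit j = true then 1 else 0) = comb v B n := by
  rw [comb_eq_sum]
  unfold lc
  apply Finset.sum_congr rfl
  intro j _
  by_cases h : n.testBit j = true
  · simp [h]
  · simp [h]

theorem lc_zero (v : C → J) (B : List C) : lc v B 0 = 0 := by
  unfold lc
  apply Finset.sum_eq_zero
  intro j _
  rw [if_neg]
  rw [Pi.zero_apply]
  decide

theorem lc_single (v : C → J) (B : List C) (j : Fin B.length) :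
    lc v B (Pi.single j 1) = v (B.get j) := by
  unfold lc
  rw [Finset.sum_eq_single j]
  · simp
  · intro i _ hi
    rw [Pi.single_eq_of_ne hi]
    simp
  · intro h
    exact absurd (Finset.mem_univ j) h

/-- The invariant. -/
structure GInv (v : C → J) (s : List J × List C) : Prop where
  len : s.1.length = 2 ^ s.2.length
  get : ∀ n < 2 ^ s.2.length, s.1[n]? = some (comb v s.2 n)
  nodup : s.1.Nodup

theorem GInv.mem_iff {v : C → J} {s : List J × List C} (h : GInv v s) (x : J) :
    x ∈ s.1 ↔ ∃ n < 2 ^ s.2.length, comb v s.2 n = x := by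
  rw [List.mem_iff_getElem?]
  constructor
  · rintro ⟨n, hn⟩
    have hlt : n < 2 ^ s.2.length := by
      rw [← h.len]
      exact (List.getElem?_eq_some_iff.1 hn).1
    refine ⟨n, hlt, ?_⟩
    rw [h.get n hlt] at hn
    exact Option.some.inj hn
  · rintro ⟨n, hn, rfl⟩
    exact ⟨n, h.get n hn⟩

theorem ginv_nil (v : C → J) : GInv v (([0], []) : List J × List C) where
  len := rfl
  get := by
    intro n hn
    simp only [List.length_nil, pow_zero, Nat.lt_one_iff] at hn
    subst hn
    rfl
  nodup := by simp

theorem GInv.mem_comb {v : C → J} {s : List J × List C} (h : GInv v s) (n : ℕ) :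
    comb v s.2 n ∈ s.1 := by
  rw [h.mem_iff]
  exact ⟨n % 2 ^ s.2.length, Nat.mod_lt _ (by positivity), comb_mod v s.2 n⟩

theorem GInv.add_mem (hJ : ∀ x : J, x + x = 0) {v : C → J} {s : List J × List C} (h : GInv v s)
    {x y : J} (hx : x ∈ s.1) (hy : y ∈ s.1) : x + y ∈ s.1 := by
  rw [h.mem_iff] at hx hy
  obtain ⟨n, -, rfl⟩ := hx
  obtain ⟨m, -, rfl⟩ := hy
  rw [← comb_xor hJ]
  exact h.mem_comb _

theorem GInv.zero_mem {v : C → J} {s : List J × List C} (h : GInv v s) : 0 ∈ s.1 := by
  have := h.mem_comb 0
  rwa [comb_zero] at this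

variable [DecidableEq J]

/-- One step of the greedy choice. -/
def gstep (v : C → J) (s : List J × List C) (c : C) : List J × List C :=
  if v c ∈ s.1 then s else (s.1 ++ s.1.map (fun x => x + v c), s.2 ++ [c])

/-- The greedy choice: all elements of the span, the chosen candidates. -/
def greedy (v : C → J) (L : List C) : List J × List C := L.foldl (gstep v) ([0], [])

theorem GInv.step (hJ : ∀ x : J, x + x = 0) {v : C → J} {s : List J × List C} (h : GInv v s)
    (c : C) : GInv v (gstep v s c) ∧ v c ∈ (gstep v s c).1 ∧ ∀ x ∈ s.1, x ∈ (gstep v s c).1 := by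
  unfold gstep
  by_cases hc : v c ∈ s.1
  · rw [if_pos hc]
    exact ⟨h, hc, fun x hx => hx⟩
  · rw [if_neg hc]
    refine ⟨⟨?_, ?_, ?_⟩, ?_, ?_⟩
    · simp only [List.length_append, List.length_map, List.length_singleton, pow_succ, h.len]
      ring
    · intro n hn
      simp only [List.length_append, List.length_singleton] at hn
      simp only [comb_append]
      by_cases hn1 : n < 2 ^ s.2.length
      · rw [List.getElem?_append_left (by rw [h.len]; exact hn1), h.get n hn1,
          Nat.div_eq_of_lt hn1, comb_zero, add_zero]
      · push Not at hn1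
        rw [List.getElem?_append_right (by rw [h.len]; exact hn1), List.getElem?_map, h.len,
          h.get _ (by rw [pow_succ] at hn; omega), Option.map_some]
        congr 1
        have e1 : n / 2 ^ s.2.length = 1 := by
          apply Nat.div_eq_of_lt_le
          · simpa using hn1
          · rw [pow_succ] at hn; omega
        have e2 : n - 2 ^ s.2.length = n % 2 ^ s.2.length := by
          rw [Nat.mod_eq_sub_mod hn1, Nat.mod_eq_of_lt (by rw [pow_succ] at hn; omega)]
        rw [e1, e2, comb_mod]
        simp [comb]
    · rw [List.nodup_append]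
      refine ⟨h.nodup, ?_, ?_⟩
      · exact h.nodup.map (fun a b hab => add_right_cancel hab)
      · intro a ha b hb hab
        obtain ⟨y, hy, rfl⟩ := List.mem_map.1 hb
        apply hc
        have : v c = a + y := by
          rw [hab]
          have : y + v c + y = v c + (y + y) := by abel
          rw [this, hJ, add_zero]
        rw [this]
        exact h.add_mem hJ ha hy
    · apply List.mem_append_right
      rw [List.mem_map]
      exact ⟨0, h.zero_mem, zero_add _⟩
    · intro x hx
      exact List.mem_append_left _ hx

theorem greedy_spec (hJ : ∀ x : J, x + x = 0) (v : C → J) (L : List C) :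
    GInv v (greedy v L) ∧ ∀ c ∈ L, v c ∈ (greedy v L).1 := by
  unfold greedy
  have key : ∀ (L : List C) (s : List J × List C), GInv v s →
      GInv v (L.foldl (gstep v) s) ∧ (∀ x ∈ s.1, x ∈ (L.foldl (gstep v) s).1) ∧
        ∀ c ∈ L, v c ∈ (L.foldl (gstep v) s).1 := by
    intro L
    induction L with
    | nil => intro s hs; exact ⟨hs, fun x hx => hx, by simp⟩
    | cons c L ih =>
      intro s hs
      obtain ⟨h1, h2, h3⟩ := hs.step hJ c
      obtain ⟨h4, h5, h6⟩ := ih _ h1
      refine ⟨h4, fun x hx => h5 x (h3 x hx), ?_⟩
      intro c' hc'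
      rcases List.mem_cons.1 hc' with rfl | hc'
      · exact h5 _ h2
      · exact h6 c' hc'
  obtain ⟨h1, -, h2⟩ := key L _ (ginv_nil v)
  exact ⟨h1, h2⟩

/-- the chosen candidates are candidates -/
theorem greedy_sub (v : C → J) (L : List C) : ∀ c ∈ (greedy v L).2, c ∈ L := by
  unfold greedy
  have key : ∀ (L : List C) (s : List J × List C), ∀ c ∈ (L.foldl (gstep v) s).2, c ∈ s.2 ∨ c ∈ L := by
    intro L
    induction L with
    | nil => intro s c hc; exact Or.inl hc
    | cons c' L ih =>
      intro s c hc
      rcases ih _ c hc with h | h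
      · unfold gstep at h
        split_ifs at h with h1
        · exact Or.inl h
        · rcases List.mem_append.1 h with h | h
          · exact Or.inl h
          · rw [List.mem_singleton] at h
            exact Or.inr (h ▸ List.mem_cons_self)
      · exact Or.inr (List.mem_cons_of_mem _ h)
  intro c hc
  rcases key L _ c hc with h | h
  · simp at h
  · exact h

/-- If the candidates generate `J` then the greedy choice gives all elements of `J`. -/
theorem greedy_all (hJ : ∀ x : J, x + x = 0) (v : C → J) (L : List C)
    (hL : AddSubgroup.closure (v '' {c | c ∈ L}) = ⊤) (x : J) : x ∈ (greedy v L).1 := by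
  obtain ⟨h1, h2⟩ := greedy_spec hJ v L
  let A : AddSubgroup J :=
    { carrier := {x | x ∈ (greedy v L).1}
      add_mem' := fun ha hb => h1.add_mem hJ ha hb
      zero_mem' := h1.zero_mem
      neg_mem' := fun {x} hx => by
        have : -x = x := neg_eq_of_add_eq_zero_left (hJ x)
        rw [this]
        exact hx }
  have h3 : AddSubgroup.closure (v '' {c | c ∈ L}) ≤ A := by
    rw [AddSubgroup.closure_le]
    rintro _ ⟨c, hc, rfl⟩
    exact h2 c hc
  rw [hL] at h3
  exact h3 (AddSubgroup.mem_top x)

variable (v : C → J) (L : List C)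

/-- the number of the chosen vectors -/
def gdim : ℕ := (greedy v L).2.length

/-- **The basis gives an isomorphism.** -/
noncomputable def geq (hJ : ∀ x : J, x + x = 0)
    (hL : AddSubgroup.closure (v '' {c | c ∈ L}) = ⊤) : J ≃+ (Fin (gdim v L) → ZMod 2) :=
  (AddEquiv.ofBijective
    ({ toFun := fun x => lc v (greedy v L).2 x
       map_zero' := lc_zero v _
       map_add' := fun x y => lc_add hJ v _ x y } : (Fin (gdim v L) → ZMod 2) →+ J) (by
    classical
    obtain ⟨h1, -⟩ := greedy_spec hJ v L
    have hnum : ∀ x : Fin (gdim v L) → ZMod 2, ∃ n < 2 ^ (gdim v L),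
        (fun j : Fin (gdim v L) => if n.testBit j = true then (1 : ZMod 2) else 0) = x := by
      intro x
      refine ⟨Nat.ofBits fun j => decide (x j = 1), Nat.ofBits_lt_two_pow _, ?_⟩
      funext j
      rw [Nat.testBit_ofBits_lt _ _ j.2]
      have h2 : ∀ c : ZMod 2, c = 0 ∨ c = 1 := by decide
      rcases h2 (x j) with h | h <;> simp [h]
    constructor
    · intro x y hxy
      obtain ⟨n, hn, hx⟩ := hnum x
      obtain ⟨m, hm, hy⟩ := hnum y
      have hxy' : comb v (greedy v L).2 n = comb v (greedy v L).2 m := by
        rw [← lc_bits, ← lc_bits]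
        have e1 : lc v (greedy v L).2 (fun j => if n.testBit j = true then 1 else 0) =
          lc v (greedy v L).2 x := congrArg _ hx
        have e2 : lc v (greedy v L).2 (fun j => if m.testBit j = true then 1 else 0) =
          lc v (greedy v L).2 y := congrArg _ hy
        rw [e1, e2]
        exact hxy
      have g1 := h1.get n hn
      have g2 := h1.get m hm
      rw [hxy', ← g2] at g1
      have hn' : n < (greedy v L).1.length := by rw [h1.len]; exact hn
      have := (List.getElem?_inj hn' h1.nodup).1 g1
      rw [← hx, ← hy, this]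
    · intro x
      have h2 := (h1.mem_iff x).1 (greedy_all hJ v L hL x)
      obtain ⟨n, -, hn⟩ := h2
      exact ⟨fun j => if n.testBit j = true then 1 else 0, (lc_bits v _ n).trans hn⟩)).symm

theorem geq_symm_apply (hJ : ∀ x : J, x + x = 0)
    (hL : AddSubgroup.closure (v '' {c | c ∈ L}) = ⊤) (x : Fin (gdim v L) → ZMod 2) :
    (geq v L hJ hL).symm x = lc v (greedy v L).2 x := rfl

theorem geq_single (hJ : ∀ x : J, x + x = 0)
    (hL : AddSubgroup.closure (v '' {c | c ∈ L}) = ⊤) (j : Fin (gdim v L)) :
    geq v L hJ hL (v ((greedy v L).2.get j)) = Pi.single j 1 := by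
  symm
  rw [← AddEquiv.symm_apply_eq, geq_symm_apply]
  exact lc_single v _ j

/-- The element of `J` with the number `n`. -/
theorem geq_comb (hJ : ∀ x : J, x + x = 0)
    (hL : AddSubgroup.closure (v '' {c | c ∈ L}) = ⊤) (n : ℕ) (j : Fin (gdim v L)) :
    geq v L hJ hL (comb v (greedy v L).2 n) j = if n.testBit j = true then 1 else 0 := by
  have : comb v (greedy v L).2 n =
      (geq v L hJ hL).symm (fun j => if n.testBit j = true then 1 else 0) := by
    rw [geq_symm_apply]
    exact (lc_bits v _ n).symm
  rw [this, AddEquiv.apply_symm_apply]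

/-- the index of an element in the list of the span is its number -/
theorem comb_idxOf (hJ : ∀ x : J, x + x = 0)
    (hL : AddSubgroup.closure (v '' {c | c ∈ L}) = ⊤) (x : J) :
    (greedy v L).1.idxOf x < 2 ^ gdim v L ∧
      comb v (greedy v L).2 ((greedy v L).1.idxOf x) = x := by
  obtain ⟨h1, -⟩ := greedy_spec hJ v L
  have h2 := List.idxOf_lt_length_iff.2 (greedy_all hJ v L hL x)
  have h3 : (greedy v L).1.idxOf x < 2 ^ gdim v L := by
    rw [h1.len] at h2
    exact h2
  refine ⟨h3, ?_⟩
  have h4 := h1.get _ h3
  rw [List.getElem?_eq_getElem h2, List.getElem_idxOf] at h4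
  exact (Option.some.inj h4).symm

theorem card_eq [Fintype J] (hJ : ∀ x : J, x + x = 0)
    (hL : AddSubgroup.closure (v '' {c | c ∈ L}) = ⊤) : Fintype.card J = 2 ^ gdim v L := by
  rw [Fintype.card_congr (geq v L hJ hL).toEquiv, Fintype.card_fun, ZMod.card, Fintype.card_fin]

end Vale.Agent.P330.H675
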