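import Vale.Agent.P330.H675.Words
import Vale.Agent.P330.H143.Bias

/-!
# P330, block GRP: the orbits of the generators generate `J`
-/

namespace Vale.Agent.P330.H675

open MvPolynomial

variable {K : Type*} [Field K] [Fintype K] [CharP K 2]

theorem exists_eval_ne (φ : K →+ ZMod 2) (hφ : φ ≠ 0) {d : ℕ} (hd : 1 ≤ d)
    (hq : 64 * d ^ 2 ≤ Fintype.card K) {P : MvPolynomial (Fin 3) K} (hP : P.IsHomogeneous d)
    (h0 : P ≠ 0) : ∃ u : Fin 3 → K, u ≠ 0 ∧ φ (eval u P) ≠ 0 := by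
  classical
  have : Fact (Nat.Prime 2) := ⟨Nat.prime_two⟩
  let _ : Algebra (ZMod 2) K := ZMod.algebra K 2
  let l : K →ₗ[ZMod 2] ZMod 2 := AddMonoidHom.toZModLinearMap 2 φ
  have hl : l ≠ 0 := by
    intro h
    apply hφ
    ext x
    exact LinearMap.congr_fun h x
  have h1 := H143.bias_poly l hl d hd hq P h0 hP
  have h2 : 0 < Nat.card {γ : Matrix.SpecialLinearGroup (Fin 3) K //
      l (MvPolynomial.eval (H143.fcol γ) P) ≠ 0} := by
    by_contra h
    have h3 : Nat.card {γ : Matrix.SpecialLinearGroup (Fin 3) K //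
      l (MvPolynomial.eval (H143.fcol γ) P) ≠ 0} = 0 := by omega
    rw [h3] at h1
    have h4 : 0 < Nat.card (Matrix.SpecialLinearGroup (Fin 3) K) := Nat.card_pos
    omega
  obtain ⟨⟨γ, hγ⟩⟩ := (Nat.card_pos_iff.1 h2).1
  refine ⟨H143.fcol γ, ?_, hγ⟩
  exact mulVec_ne_zero γ e1_ne_zero

/-- The degrees are not zero and small. -/
structure DegOK (K : Type*) [Fintype K] {ι : Type*} (d : ι → ℕ) : Prop where
  pos : ∀ i, 1 ≤ d i
  le : ∀ i, 64 * d i ^ 2 ≤ Fintype.card K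

variable {ι : Type*} [Fintype ι] [DecidableEq ι] {d : ι → ℕ}

omit [Fintype ι] [DecidableEq ι] in
/-- a nontrivial functional exists -/
theorem exists_functional (K : Type*) [Field K] [Fintype K] [CharP K 2] : ∃ φ : K →+ ZMod 2, φ ≠ 0 := by
  have : Fact (Nat.Prime 2) := ⟨Nat.prime_two⟩
  let _ : Algebra (ZMod 2) K := ZMod.algebra K 2
  obtain ⟨f, hf, -⟩ := Submodule.exists_le_ker_of_lt_top (⊥ : Submodule (ZMod 2) K) bot_lt_top
  refine ⟨f.toAddMonoidHom, fun h => hf ?_⟩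
  ext x
  exact DFunLike.congr_fun h x

/-- **The Veronese vectors generate `J`.** -/
theorem closure_ven (hd : DegOK K d) :
    AddSubgroup.closure {w : JJ K d | ∃ i, ∃ u : Fin 3 → K, u ≠ 0 ∧ w = ven d i u} = ⊤ := by
  classical
  by_contra hne
  have : Fact (Nat.Prime 2) := ⟨Nat.prime_two⟩
  let _ : Module (ZMod 2) (JJ K d) := AddCommGroup.zmodModule (n := 2) fun x => by
    rw [two_nsmul]; exact JJ.add_self x
  obtain ⟨φ, hφ⟩ := exists_functional K
  set A := AddSubgroup.closure {w : JJ K d | ∃ i, ∃ u : Fin 3 → K, u ≠ 0 ∧ w = ven d i u} with hA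
  let S : Submodule (ZMod 2) (JJ K d) := AddSubgroup.toZModSubmodule 2 A
  have hS : S < ⊤ := by
    rw [lt_top_iff_ne_top]
    intro h
    apply hne
    rw [eq_top_iff]
    intro x _
    have : x ∈ S := by rw [h]; exact Submodule.mem_top
    exact this
  obtain ⟨f, hf, hle⟩ := Submodule.exists_le_ker_of_lt_top S hS
  have hχ : (f.toAddMonoidHom : JJ K d →+ ZMod 2) ≠ 0 := by
    intro h
    apply hf
    ext x
    exact DFunLike.congr_fun h x
  obtain ⟨i, P, hP, hP0, hval⟩ := exists_poly_ne φ hφ f.toAddMonoidHom hχ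
  obtain ⟨u, hu, hne⟩ := exists_eval_ne φ hφ (hd.pos i) (hd.le i) hP hP0
  apply hne
  rw [← hval]
  have h1 : ven d i u ∈ S := AddSubgroup.subset_closure ⟨i, u, hu, rfl⟩
  exact hle h1

end Vale.Agent.P330.H675
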