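import Vale.Agent.P330.H675.NGreedy
import Vale.Agent.P330.H675.Orbit
import Vale.Agent.P330.W.H604.Gam

/-!
# P330, block GRP: vectors and elements of `J` over the explicit fields, as numbers

`vn l u`: the number of the vector `u`.  `kp l d w`: the key of the element `w` of `JJ (Fl l) d`; it
is compatible with `^^^` and injective.  The keys of Veronese vectors are computable in polynomial
time.
-/

namespace Vale.Agent.P330.H675

open Vale.Agent.Lib.PolyTime Vale.Agent.P330.H933 Vale.Agent.P330.H604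

/-! ### Vectors -/

/-- the number of a vector -/
noncomputable def vn (l : ℕ) (u : Fin 3 → Fl l) : ℕ := pack (eF l) 3 fun t => cod l (u (f3 t))

/-- the vector with a given number -/
noncomputable def vd (l n : ℕ) : Fin 3 → Fl l := fun t => dec l (dg (eF l) n t)

theorem vn_lt (l : ℕ) (u : Fin 3 → Fl l) : vn l u < 2 ^ (eF l * 3) := pack_lt _ _ _

theorem dg_vn (l : ℕ) (u : Fin 3 → Fl l) (t : Fin 3) : dg (eF l) (vn l u) t = cod l (u t) := by
  unfold vn
  rw [dg_pack t.2 (cod_lt _), f3_fin]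

theorem vd_vn (l : ℕ) (u : Fin 3 → Fl l) : vd l (vn l u) = u := by
  funext t
  unfold vd
  rw [dg_vn, dec_cod]

theorem vn_inj {l : ℕ} : Function.Injective (vn l) := fun u u' h => by
  rw [← vd_vn l u, h, vd_vn]

theorem vn_vd {l n : ℕ} (hn : n < 2 ^ (eF l * 3)) : vn l (vd l n) = n := by
  unfold vn vd
  conv_rhs => rw [← pack_dg hn]
  refine pack_congr fun t ht => ?_
  rw [val_f3, Nat.mod_eq_of_lt ht, cod_dec (dg_lt _ _ _)]

section PTV

variable {A : Set Word} {α : Type*} [Enc α] {l : α → ℕ}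

/-- The number of the vector `u a` is computable in polynomial time. -/
def VT (A : Set Word) (l : α → ℕ) (u : ∀ a, Fin 3 → Fl (l a)) : Prop := PT A (fun a => vn (l a) (u a))

theorem VT.congr {u u' : ∀ a, Fin 3 → Fl (l a)} (hu : VT A l u) (h : ∀ a, u a = u' a) :
    VT A l u' := by
  have : u = u' := funext h
  rwa [this] at hu

theorem VT.comp {β : Type*} [Enc β] {u : ∀ a, Fin 3 → Fl (l a)} (hu : VT A l u) {g : β → α}
    (hg : PT A g) : VT A (fun b => l (g b)) (fun b => u (g b)) :=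
  PT.comp (g := fun a => vn (l a) (u a)) hu hg

theorem VT.entryNat (hl : LPar A l) {u : ∀ a, Fin 3 → Fl (l a)} (hu : VT A l u) {i : α → ℕ}
    (hi : PT A i) : FT A l (fun a => u a (f3 (i a))) := by
  refine (PT_dg hl.eF hl.eFbd hu (PT.mod hi (PT.const 3))
    ((PBd.const 3).mono fun a => (Nat.mod_lt _ (by norm_num)).le)).congr fun a => ?_
  rw [← dg_vn, val_f3]

theorem VT.entry (hl : LPar A l) {u : ∀ a, Fin 3 → Fl (l a)} (hu : VT A l u) (i : Fin 3) :
    FT A l (fun a => u a i) :=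
  (hu.entryNat hl (PT.const (i : ℕ))).congr fun a => by rw [f3_fin]

theorem PT_finCases {r : ℕ} {f : Fin r → α → ℕ} (h : ∀ i, PT A (f i)) (hr : 0 < r) :
    PT A (fun q : α × ℕ => f ⟨q.2 % r, Nat.mod_lt _ hr⟩ q.1) := by
  refine (S.PT_sumFin (f := fun (i : Fin r) (q : α × ℕ) => if q.2 % r = i then f i q.1 else 0)
    fun i => PT.ite (PT.eqNat (PT.mod PT.snd' (PT.const r)) (PT.const (i : ℕ)))
      ((h i).comp PT.fst') (PT.const 0)).congr fun q => ?_
  rw [Finset.sum_eq_single ⟨q.2 % r, Nat.mod_lt _ hr⟩]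
  · simp
  · intro b _ hb
    rw [if_neg]
    intro h
    exact hb (Fin.ext h.symm)
  · intro h
    exact absurd (Finset.mem_univ _) h

theorem VT.mk (hl : LPar A l) {u : ∀ a, Fin 3 → Fl (l a)} (h : ∀ t, FT A l (fun a => u a t)) :
    VT A l u := by
  refine (PT_pack (g := fun a t => cod (l a) (u a (f3 t))) hl.eF hl.eFbd (PT.const 3)
    (PBd.const 3) ?_).congr fun a => rfl
  exact PT_finCases (f := fun t a => cod (l a) (u a t)) h (by norm_num)

/-- The vector with a given number. -/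
theorem VT.ofNum (hl : LPar A l) {n : α → ℕ} (hn : PT A n) : VT A l (fun a => vd (l a) (n a)) :=
  VT.mk hl fun t => FT.dec (PT_dg hl.eF hl.eFbd hn (PT.const (t : ℕ)) (PBd.const _))
    fun _ => dg_lt _ _ _

theorem VT.mulVec (hl : LPar A l) {M : ∀ a, Matrix (Fin 3) (Fin 3) (Fl (l a))} (hM : MT A l M)
    {u : ∀ a, Fin 3 → Fl (l a)} (hu : VT A l u) : VT A l (fun a => (M a).mulVec (u a)) :=
  VT.mk hl fun t => FT_mulVec hl hM (fun i => hu.entry hl i) t

theorem VT.e1 (hl : LPar A l) : VT A l (fun _ => H675.e1 _) := by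
  refine VT.mk hl fun t => ?_
  unfold H675.e1
  by_cases h : t = 0
  · subst h
    exact FT.congr FT.one fun a => by simp
  · exact FT.congr FT.zero fun a => by rw [Pi.single_eq_of_ne h]

end PTV

/-! ### The letters -/

/-- column of the letter with the number `n` -/
def ltj (n : ℕ) : ℕ := if n % 2 < n % 6 / 2 then n % 2 else n % 2 + 1

/-- the letter with the number `n`; the twelve letters have the numbers `< 12` (the entry is `1` for
the numbers `< 6`); the order is the one of `H604.elt` -/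
def ltr (n : ℕ) : Ltr := (f3 (n % 6 / 2), f3 (ltj n), decide (6 ≤ n))

theorem ltr_ne {n : ℕ} (hn : n < 12) : (ltr n).1 ≠ (ltr n).2.1 := by
  revert n
  decide

theorem exists_ltr (a : Ltr) (ha : a.1 ≠ a.2.1) : ∃ n < 12, ltr n = a := by
  revert a
  decide

/-- the action of the letter `a` on the number of a vector -/
noncomputable def nact (l a x : ℕ) : ℕ :=
  vn l fun t => if t = f3 (a % 6 / 2) then
    vd l x t + (if 6 ≤ a then th l else 1) * vd l x (f3 (ltj a)) else vd l x t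

theorem nact_eq (l : ℕ) {a : ℕ} (ha : a < 12) (u : Fin 3 → Fl l) :
    nact l a (vn l u) = vn l (lact (th l) (ltr a) u) := by
  unfold nact
  rw [lact_eq (th l) (ltr_ne ha), vd_vn]
  congr 1
  funext t
  unfold ltr
  simp only
  by_cases h : t = f3 (a % 6 / 2)
  · rw [if_pos h, h, Function.update_self]
    simp
  · rw [if_neg h, Function.update_of_ne h]

theorem nact_lt (l a x : ℕ) : nact l a x < 2 ^ (eF l * 3) := vn_lt _ _

/-- the group element of a word of numbers of letters -/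
noncomputable def wgN {K : Type*} [Field K] (θ : K) (w : List ℕ) :
    Matrix.SpecialLinearGroup (Fin 3) K := (w.map fun n => lg θ (ltr n)).prod

theorem wgN_nil {K : Type*} [Field K] (θ : K) : wgN θ [] = 1 := rfl

theorem wgN_cons {K : Type*} [Field K] (θ : K) (n : ℕ) (w : List ℕ) :
    wgN θ (n :: w) = lg θ (ltr n) * wgN θ w := by
  unfold wgN
  rw [List.map_cons, List.prod_cons]

theorem wact_wgN {K : Type*} [Field K] (θ : K) (w : List ℕ) (u : Fin 3 → K) :
    wact (fun n => lact θ (ltr n)) w u = (wgN θ w).1.mulVec u := by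
  induction w with
  | nil => simp [wact, wgN]
  | cons a w ih =>
    rw [wact_cons, ih, wgN_cons]
    unfold lact
    rw [Matrix.SpecialLinearGroup.coe_mul, Matrix.mulVec_mulVec]

/-- the generator of `Fl l` generates it -/
theorem genBy_th (l : ℕ) : GenBy (th l) := by
  intro S h1 hS
  rw [eq_top_iff]
  intro x _
  rw [eq_sum_bitF x]
  have hp : ∀ i, th l ^ i ∈ S := by
    intro i
    induction i with
    | zero => simpa using h1
    | succ i ih => rw [pow_succ']; exact hS _ ih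
  refine AddSubgroup.sum_mem _ fun i _ => ?_
  split_ifs
  · exact hp i
  · exact S.zero_mem

/-- The table of the vectors `≠ 0`: numbers and words. -/
noncomputable def vtab (l : ℕ) : List (ℕ × List ℕ) :=
  wtab (nact l) (List.range 12) (vn l (e1 _)) (2 ^ (eF l * 3))

open Classical in
theorem vtab_eq (l : ℕ) : vtab l =
    (wtab (fun n => lact (th l) (ltr n)) (List.range 12) (e1 (Fl l)) (2 ^ (eF l * 3))).map
      fun p => (vn l p.1, p.2) := by
  unfold vtab
  have := wtab_map (vn l) vn_inj (g := fun n => lact (th l) (ltr n)) (g' := nact l)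
    (List.range 12) (fun a ha x => nact_eq l (List.mem_range.1 ha) x) (e1 _) (2 ^ (eF l * 3))
  convert this

theorem card_vec (l : ℕ) : Fintype.card (Fin 3 → Fl l) = 2 ^ (eF l * 3) := by
  rw [Fintype.card_fun, card_Fl, Fintype.card_fin, ← pow_mul]

/-- Every vector `≠ 0` is in the table. -/
theorem mem_vtab {l : ℕ} {u : Fin 3 → Fl l} (hu : u ≠ 0) : ∃ w, (vn l u, w) ∈ vtab l := by
  classical
  rw [vtab_eq]
  have h : u ∈ (wtab (fun n => lact (th l) (ltr n)) (List.range 12) (e1 (Fl l))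
      (2 ^ (eF l * 3))).map Prod.fst := by
    apply mem_wtab _ _ _ _ (card_vec l).le
    intro Y h0 hY
    have h1 := (mem_wtab_lact (genBy_th l) (2 ^ (eF l * 3)) (card_vec l).le hu)
    rw [List.mem_map] at h1
    obtain ⟨p, hp, hpu⟩ := h1
    have h2 := wtab_inv (lact (th l)) ltrs (e1 (Fl l)) (2 ^ (eF l * 3))
    have h3 := h2.act p hp
    have h4 := h2.sub p hp
    rw [← hpu, ← h3]
    clear h3 hpu hp
    generalize p.2 = w at h4
    induction w with
    | nil => exact h0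
    | cons a w ih =>
      rw [wact_cons]
      obtain ⟨n, hn, ha⟩ := exists_ltr a ((mem_ltrs a).1 (h4 a List.mem_cons_self))
      rw [← ha]
      exact hY _ (ih fun b hb => h4 b (List.mem_cons_of_mem _ hb)) n (List.mem_range.2 hn)
  rw [List.mem_map] at h
  obtain ⟨p, hp, rfl⟩ := h
  exact ⟨p.2, List.mem_map.2 ⟨p, hp, rfl⟩⟩

/-- The entries of the table. -/
theorem vtab_spec {l : ℕ} {p : ℕ × List ℕ} (hp : p ∈ vtab l) :
    (wgN (th l) p.2).1.mulVec (e1 _) = vd l p.1 ∧ (∀ n ∈ p.2, n < 12) ∧ p.1 < 2 ^ (eF l * 3) ∧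
      p.2.length ≤ 2 ^ (eF l * 3) := by
  classical
  rw [vtab_eq] at hp
  obtain ⟨q, hq, rfl⟩ := List.mem_map.1 hp
  have h := wtab_inv (fun n => lact (th l) (ltr n)) (List.range 12) (e1 (Fl l)) (2 ^ (eF l * 3))
  refine ⟨?_, fun n hn => List.mem_range.1 (h.sub q hq n hn), vn_lt _ _, h.len q hq⟩
  rw [← wact_wgN, h.act q hq, vd_vn]

section PTL

variable {A : Set Word} {α : Type*} [Enc α] {l : α → ℕ}

theorem PT_nact (hl : LPar A l) :
    PT A (fun p : α × ℕ × ℕ => nact (l p.1) p.2.1 p.2.2) := by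
  have hl' : LPar A (fun p : α × ℕ × ℕ => l p.1) := hl.comp PT.fst'
  have ha : PT A (fun p : α × ℕ × ℕ => p.2.1) := PT.snd'.fst
  have hu : VT A (fun p : α × ℕ × ℕ => l p.1) (fun p => vd (l p.1) p.2.2) :=
    VT.ofNum hl' PT.snd'.snd
  have hj : PT A (fun p : α × ℕ × ℕ => ltj p.2.1) := by
    have h1 : PT A (fun p : α × ℕ × ℕ => p.2.1 % 2) := PT.mod ha (PT.const 2)
    unfold ltj
    exact PT.ite (PT.lt h1 (PT.div (PT.mod ha (PT.const 6)) (PT.const 2))) h1
      (PT.add h1 (PT.const 1))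
  have hj' : FT A (fun p : α × ℕ × ℕ => l p.1) (fun p => vd (l p.1) p.2.2 (f3 (ltj p.2.1))) :=
    hu.entryNat hl' hj
  have hc : FT A (fun p : α × ℕ × ℕ => l p.1)
      (fun p => if 6 ≤ p.2.1 then th (l p.1) else 1) :=
    FT.ite (PT.le (PT.const 6) ha) (FT.th hl') FT.one
  refine VT.mk (u := fun p : α × ℕ × ℕ => fun t => if t = f3 (p.2.1 % 6 / 2) then
    vd (l p.1) p.2.2 t + (if 6 ≤ p.2.1 then th (l p.1) else 1) *
      vd (l p.1) p.2.2 (f3 (ltj p.2.1)) else vd (l p.1) p.2.2 t) hl' fun t => ?_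
  refine FT.ite (p := fun p : α × ℕ × ℕ => t = f3 (p.2.1 % 6 / 2)) ?_
    ((hu.entry hl' t).add (FT.mul hl' hc hj')) (hu.entry hl' t)
  refine (PT.eqNat (PT.const (t : ℕ)) (PT.mod (PT.div (PT.mod ha (PT.const 6)) (PT.const 2))
    (PT.const 3))).congr
    fun p => ?_
  rw [decide_eq_decide, Fin.ext_iff, val_f3]

theorem PT_vtab (h : GPar A l) : PT A (fun a => vtab (l a)) := by
  have h3 : PT A (fun a => 2 ^ (eF (l a) * 3)) :=
    PT.pow (PT.const 2) (PT.mul h.toLPar.eF (PT.const 3)) (h.toLPar.eFbd.mul (PBd.const 3))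
  have h3b : PBd (fun a => 2 ^ (eF (l a) * 3)) :=
    (PBd.pow h.qbd 3).mono fun a => by rw [← pow_mul]
  exact PT_wtab (g := fun a => nact (l a)) 12 (PT_nact h.toLPar) h3b (fun a b x => nact_lt _ _ _)
    (VT.e1 h.toLPar) (fun a => vn_lt _ _) h3 h3b

end PTL

/-! ### The keys -/

section Key

variable {r : ℕ} [NeZero r]

/-- a natural number modulo `r` -/
def fr (r : ℕ) [NeZero r] (t : ℕ) : Fin r := ⟨t % r, Nat.mod_lt _ (Nat.pos_of_neZero r)⟩

theorem fr_fin (i : Fin r) : fr r (i : ℕ) = i := Fin.ext (Nat.mod_eq_of_lt i.2)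

/-- the coordinates of an element of `J` -/
def crd {K : Type*} [Field K] {d : Fin r → ℕ} (w : JJ K d) (i a b : ℕ) : K :=
  if h : a + b ≤ d (fr r i) then w (fr r i) ⟨![a, b, d (fr r i) - a - b], by simp; omega⟩ else 0

theorem crd_add {K : Type*} [Field K] {d : Fin r → ℕ} (w w' : JJ K d) (i a b : ℕ) :
    crd (w + w') i a b = crd w i a b + crd w' i a b := by
  unfold crd
  split_ifs
  · rfl
  · rw [add_zero]

theorem crd_ven {K : Type*} [Field K] {d : Fin r → ℕ} (i : ℕ) (u : Fin 3 → K) (i' a b : ℕ) :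
    crd (ven d (fr r i) u) i' a b = if a + b ≤ d (fr r i') ∧ i' % r = i % r then
      u 0 ^ a * u 1 ^ b * u 2 ^ (d (fr r i') - a - b) else 0 := by
  unfold crd
  rw [ven_apply]
  have e : fr r i' = fr r i ↔ i' % r = i % r := by
    unfold fr
    rw [Fin.mk.injEq]
  by_cases h1 : a + b ≤ d (fr r i')
  · rw [dif_pos h1]
    by_cases h2 : fr r i' = fr r i
    · rw [if_pos h2, if_pos ⟨h1, e.1 h2⟩]
      unfold nu
      rw [Fin.prod_univ_three]
      simp
    · rw [if_neg h2, if_neg (fun h => h2 (e.2 h.2))]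
      rfl
  · rw [dif_neg h1, if_neg (fun h => h1 h.1)]

theorem crd_inj {K : Type*} [Field K] {d : Fin r → ℕ} {E : ℕ} (hE : ∀ i, d i < E) {w w' : JJ K d}
    (h : ∀ i < r, ∀ a < E, ∀ b < E, crd w i a b = crd w' i a b) : w = w' := by
  funext i m
  have h1 := m.2
  have h2 := hE i
  have h3 := h i i.2 (m.1 0) (by omega) (m.1 1) (by omega)
  unfold crd at h3
  have h4 : m.1 0 + m.1 1 ≤ d (fr r i) := by rw [fr_fin]; omega
  rw [dif_pos h4, dif_pos h4] at h3
  have key : ∀ (j : Fin r) (hj : j = i) (pf : ![m.1 0, m.1 1, d j - m.1 0 - m.1 1] 0 +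
      ![m.1 0, m.1 1, d j - m.1 0 - m.1 1] 1 + ![m.1 0, m.1 1, d j - m.1 0 - m.1 1] 2 = d j),
      w j ⟨_, pf⟩ = w' j ⟨_, pf⟩ → w i m = w' i m := by
    intro j hj pf he
    subst hj
    have e : (⟨![m.1 0, m.1 1, d j - m.1 0 - m.1 1], pf⟩ : Mon (d j)) = m := by
      apply Subtype.ext
      funext t
      fin_cases t
      · rfl
      · rfl
      · simp
        omega
    rwa [e] at he
  exact key _ (fr_fin i) _ h3

/-- the key of an element of `J` -/
noncomputable def kp (l : ℕ) (d : Fin r → ℕ) (w : JJ (Fl l) d) : ℕ :=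
  pack (eF l) (r * (2 ^ eF l * 2 ^ eF l)) fun t =>
    cod l (crd w (t / (2 ^ eF l * 2 ^ eF l)) (t / 2 ^ eF l % 2 ^ eF l) (t % 2 ^ eF l))

theorem kp_lt (l : ℕ) (d : Fin r → ℕ) (w : JJ (Fl l) d) :
    kp l d w < 2 ^ (eF l * (r * (2 ^ eF l * 2 ^ eF l))) := pack_lt _ _ _

theorem kp_add (l : ℕ) (d : Fin r → ℕ) (w w' : JJ (Fl l) d) :
    kp l d (w + w') = kp l d w ^^^ kp l d w' := by
  unfold kp
  rw [← pack_xor]
  refine pack_congr fun t _ => ?_
  rw [crd_add, cod_add]

omit [NeZero r] in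
theorem DegOK.lt {l : ℕ} {d : Fin r → ℕ} (h : DegOK (Fl l) d) (i : Fin r) : d i < 2 ^ eF l := by
  have h1 := h.pos i
  have h2 := h.le i
  rw [card_Fl] at h2
  nlinarith

theorem kp_inj {l : ℕ} {d : Fin r → ℕ} (h : DegOK (Fl l) d) : Function.Injective (kp l d) := by
  intro w w' hw
  have hq : 0 < 2 ^ eF l := by positivity
  refine crd_inj (E := 2 ^ eF l) (fun i => h.lt i) fun i hi a ha b hb => ?_
  apply cod_inj (l := l)
  have ht : i * (2 ^ eF l * 2 ^ eF l) + (a * 2 ^ eF l + b) < r * (2 ^ eF l * 2 ^ eF l) := by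
    have h1 : a * 2 ^ eF l + b < 2 ^ eF l * 2 ^ eF l := by nlinarith
    have h2 : (i + 1) * (2 ^ eF l * 2 ^ eF l) ≤ r * (2 ^ eF l * 2 ^ eF l) :=
      Nat.mul_le_mul_right _ hi
    nlinarith
  have h1 : a * 2 ^ eF l + b < 2 ^ eF l * 2 ^ eF l := by nlinarith
  have e1 : (i * (2 ^ eF l * 2 ^ eF l) + (a * 2 ^ eF l + b)) / (2 ^ eF l * 2 ^ eF l) = i := by
    rw [mul_comm i, Nat.mul_add_div (by positivity), Nat.div_eq_of_lt h1, add_zero]
  have e2 : (i * (2 ^ eF l * 2 ^ eF l) + (a * 2 ^ eF l + b)) / 2 ^ eF l % 2 ^ eF l = a := by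
    have : i * (2 ^ eF l * 2 ^ eF l) + (a * 2 ^ eF l + b) = 2 ^ eF l * (2 ^ eF l * i + a) + b := by
      ring
    rw [this, Nat.mul_add_div hq, Nat.div_eq_of_lt hb, add_zero, Nat.mul_add_mod,
      Nat.mod_eq_of_lt ha]
  have e3 : (i * (2 ^ eF l * 2 ^ eF l) + (a * 2 ^ eF l + b)) % 2 ^ eF l = b := by
    have : i * (2 ^ eF l * 2 ^ eF l) + (a * 2 ^ eF l + b) = 2 ^ eF l * (2 ^ eF l * i + a) + b := by
      ring
    rw [this, Nat.mul_add_mod, Nat.mod_eq_of_lt hb]
  have g : ∀ w : JJ (Fl l) d, dg (eF l) (kp l d w)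
      (i * (2 ^ eF l * 2 ^ eF l) + (a * 2 ^ eF l + b)) = cod l (crd w i a b) := by
    intro w
    unfold kp
    rw [dg_pack ht (cod_lt _), e1, e2, e3]
  rw [← g w, ← g w', hw]

end Key

/-! ### Polynomial time -/

section PTK

variable {A : Set Word} {α : Type*} [Enc α] {r : ℕ} [NeZero r]

/-- Standing assumptions on the parameters. -/
structure JPar (A : Set Word) (l : α → ℕ) (d : α → Fin r → ℕ) : Prop extends GPar A l where
  dpt : ∀ i, PT A (fun a => d a i)
  ok : ∀ a, DegOK (Fl (l a)) (d a)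
  jbd : PBd (fun a => Fintype.card (JJ (Fl (l a)) (d a)))

variable {l : α → ℕ} {d : α → Fin r → ℕ}

omit [NeZero r] in
theorem JPar.comp {β : Type*} [Enc β] (h : JPar A l d) {g : β → α} (hg : PT A g) :
    JPar A (fun b => l (g b)) (fun b => d (g b)) :=
  ⟨h.toGPar.comp hg, fun i => (h.dpt i).comp hg, fun b => h.ok (g b),
    PBd.comp (b := fun a => Fintype.card (JJ (Fl (l a)) (d a))) h.jbd hg⟩

omit [NeZero r] in
theorem JPar.ptq (h : JPar A l d) : PT A (fun a => 2 ^ eF (l a)) :=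
  PT.pow (PT.const 2) h.toLPar.eF h.toLPar.eFbd

theorem JPar.dfr (h : JPar A l d) {i : α → ℕ} (hi : PT A i) : PT A (fun a => d a (fr r (i a))) :=
  PT.comp (g := fun q : α × ℕ => d q.1 (fr r q.2)) (f := fun a => (a, i a))
    (PT_finCases (f := fun i a => d a i) h.dpt (Nat.pos_of_neZero r)) (PT.id.pair hi)

/-- The keys of the Veronese vectors. -/
theorem JPar.kp_ven (h : JPar A l d) {i : α → ℕ} (hi : PT A i) {u : ∀ a, Fin 3 → Fl (l a)}
    (hu : VT A l u) : PT A (fun a => kp (l a) (d a) (ven (d a) (fr r (i a)) (u a))) := by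
  have hq := h.ptq
  have hqb : PBd (fun a => 2 ^ eF (l a)) := h.qbd
  have hM : PT A (fun a => r * (2 ^ eF (l a) * 2 ^ eF (l a))) :=
    PT.mul (PT.const r) (PT.mul hq hq)
  have hMb : PBd (fun a => r * (2 ^ eF (l a) * 2 ^ eF (l a))) := by fun_prop
  have h' : JPar A (fun p : α × ℕ => l p.1) (fun p => d p.1) := h.comp PT.fst'
  have hl' : LPar A (fun p : α × ℕ => l p.1) := h'.toLPar
  have hq' : PT A (fun p : α × ℕ => 2 ^ eF (l p.1)) := hq.comp PT.fst'
  have hu' : VT A (fun p : α × ℕ => l p.1) (fun p => u p.1) := hu.comp PT.fst'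
  have ht : PT A (fun p : α × ℕ => p.2) := PT.snd'
  have t1 : PT A (fun p : α × ℕ => p.2 / (2 ^ eF (l p.1) * 2 ^ eF (l p.1))) :=
    PT.div ht (PT.mul hq' hq')
  have t2 : PT A (fun p : α × ℕ => p.2 / 2 ^ eF (l p.1) % 2 ^ eF (l p.1)) :=
    PT.mod (PT.div ht hq') hq'
  have t3 : PT A (fun p : α × ℕ => p.2 % 2 ^ eF (l p.1)) := PT.mod ht hq'
  have hd := h'.dfr t1
  refine (PT_pack (f := fun a => eF (l a)) (M := fun a => r * (2 ^ eF (l a) * 2 ^ eF (l a)))
    (g := fun a t => cod (l a) (crd (ven (d a) (fr r (i a)) (u a))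
      (t / (2 ^ eF (l a) * 2 ^ eF (l a))) (t / 2 ^ eF (l a) % 2 ^ eF (l a)) (t % 2 ^ eF (l a))))
    h.toLPar.eF h.toLPar.eFbd hM hMb ?_).congr fun a => rfl
  have key : FT A (fun p : α × ℕ => l p.1) (fun p =>
      if (p.2 / 2 ^ eF (l p.1) % 2 ^ eF (l p.1)) + p.2 % 2 ^ eF (l p.1) ≤
        d p.1 (fr r (p.2 / (2 ^ eF (l p.1) * 2 ^ eF (l p.1)))) ∧
        p.2 / (2 ^ eF (l p.1) * 2 ^ eF (l p.1)) % r = i p.1 % r then
      u p.1 0 ^ (p.2 / 2 ^ eF (l p.1) % 2 ^ eF (l p.1)) * u p.1 1 ^ (p.2 % 2 ^ eF (l p.1)) *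
        u p.1 2 ^ (d p.1 (fr r (p.2 / (2 ^ eF (l p.1) * 2 ^ eF (l p.1)))) -
          p.2 / 2 ^ eF (l p.1) % 2 ^ eF (l p.1) - p.2 % 2 ^ eF (l p.1)) else 0) := by
    refine FT.ite (PT.decide_and (PT.le (PT.add t2 t3) hd)
      (PT.eqNat (PT.mod t1 (PT.const r)) (PT.mod (hi.comp PT.fst') (PT.const r)))) ?_ FT.zero
    exact FT.mul hl' (FT.mul hl' (FT.pow hl' (hu'.entry hl' 0) t2)
      (FT.pow hl' (hu'.entry hl' 1) t3)) (FT.pow hl' (hu'.entry hl' 2)
        (PT.sub (PT.sub hd t2) t3))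
  refine PT.congr key fun p => ?_
  beta_reduce
  rw [crd_ven]

end PTK

end Vale.Agent.P330.H675
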