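import Vale.Agent.P330.H675.JDef

/-!
# P330, block GRP: words in the generators

`wtab g S x0 n`: table of the points reachable from `x0` by words of length at most `n`, with words.
`tv i j r`: elementary matrices in `SL₃(K)`.  The elementary matrices `tv i j 1`, `tv i j θ`
generate all elementary matrices if `K` is generated by `θ`, and act transitively on the vectors
`≠ 0`.
-/

namespace Vale.Agent.P330.H675

/-! ### Tables of words -/

section Tab

variable {X A : Type*} (g : A → X → X)

/-- the action of a word (the last letter acts first) -/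
def wact (w : List A) (x : X) : X := w.foldr g x

theorem wact_cons (a : A) (w : List A) (x : X) : wact g (a :: w) x = g a (wact g w x) := rfl

variable [DecidableEq X]

/-- insert a point with its word, if the point is new -/
def wins (T : List (X × List A)) (p : X × List A) : List (X × List A) :=
  if p.1 ∈ T.map Prod.fst then T else T ++ [p]

/-- one round -/
def wround (S : List A) (T : List (X × List A)) : List (X × List A) :=
  (T.flatMap fun p => S.map fun a => (g a p.1, a :: p.2)).foldl wins T

/-- the table after `n` rounds -/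
def wtab (S : List A) (x0 : X) (n : ℕ) : List (X × List A) := (wround g S)^[n] [(x0, [])]

theorem wins_fold (L T : List (X × List A)) : ∃ T', L.foldl wins T = T ++ T' ∧
    (∀ p ∈ T', p ∈ L) ∧ (∀ p ∈ L, p.1 ∈ (L.foldl wins T).map Prod.fst) ∧
    ((T.map Prod.fst).Nodup → ((L.foldl wins T).map Prod.fst).Nodup) := by
  induction L generalizing T with
  | nil => exact ⟨[], by simp, by simp, by simp, fun h => h⟩
  | cons p L ih =>
    obtain ⟨T', h1, h2, h3, h4⟩ := ih (wins T p)
    rw [List.foldl_cons]
    by_cases hp : p.1 ∈ T.map Prod.fst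
    · have e : wins T p = T := by unfold wins; rw [if_pos hp]
      rw [e] at h1 h3 h4 ⊢
      refine ⟨T', h1, fun q hq => List.mem_cons_of_mem _ (h2 q hq), fun q hq => ?_, h4⟩
      rcases List.mem_cons.1 hq with rfl | hq
      · rw [h1, List.map_append]
        exact List.mem_append_left _ hp
      · exact h3 q hq
    · have e : wins T p = T ++ [p] := by unfold wins; rw [if_neg hp]
      rw [e] at h1 h3 h4 ⊢
      refine ⟨p :: T', by rw [h1]; simp, fun q hq => ?_, fun q hq => ?_, fun hn => h4 ?_⟩
      · rcases List.mem_cons.1 hq with rfl | hq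
        · exact List.mem_cons_self
        · exact List.mem_cons_of_mem _ (h2 q hq)
      · rcases List.mem_cons.1 hq with rfl | hq
        · rw [h1]; simp
        · exact h3 q hq
      · rw [List.map_append, List.nodup_append]
        refine ⟨hn, by simp, ?_⟩
        intro a ha b hb hab
        rw [List.map_singleton, List.mem_singleton] at hb
        subst hb
        subst hab
        exact hp ha

/-- What is true for the table. -/
structure WInv (S : List A) (x0 : X) (n : ℕ) (T : List (X × List A)) : Prop where
  nodup : (T.map Prod.fst).Nodup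
  act : ∀ p ∈ T, wact g p.2 x0 = p.1
  len : ∀ p ∈ T, p.2.length ≤ n
  sub : ∀ p ∈ T, ∀ a ∈ p.2, a ∈ S
  start : x0 ∈ T.map Prod.fst

theorem WInv.round {S : List A} {x0 : X} {n : ℕ} {T : List (X × List A)} (h : WInv g S x0 n T) :
    WInv g S x0 (n + 1) (wround g S T) ∧ (∃ T', wround g S T = T ++ T') ∧
      ∀ x ∈ T.map Prod.fst, ∀ a ∈ S, g a x ∈ (wround g S T).map Prod.fst := by
  obtain ⟨T', h1, h2, h3, h4⟩ := wins_fold (T.flatMap fun p => S.map fun a => (g a p.1, a :: p.2)) T
  change wround g S T = T ++ T' at h1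
  change ∀ p ∈ (T.flatMap fun p => S.map fun a => (g a p.1, a :: p.2)),
    p.1 ∈ (wround g S T).map Prod.fst at h3
  change _ → ((wround g S T).map Prod.fst).Nodup at h4
  have hnew : ∀ p ∈ T', ∃ q ∈ T, ∃ a ∈ S, p = (g a q.1, a :: q.2) := by
    intro p hp
    have := h2 p hp
    rw [List.mem_flatMap] at this
    obtain ⟨q, hq, hq'⟩ := this
    rw [List.mem_map] at hq'
    obtain ⟨a, ha, e⟩ := hq'
    exact ⟨q, hq, a, ha, e.symm⟩
  refine ⟨⟨h4 h.nodup, ?_, ?_, ?_, ?_⟩, ⟨T', h1⟩, ?_⟩
  · intro p hp
    rw [h1] at hp
    rcases List.mem_append.1 hp with hp | hp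
    · exact h.act p hp
    · obtain ⟨q, hq, a, -, rfl⟩ := hnew p hp
      rw [wact_cons, h.act q hq]
  · intro p hp
    rw [h1] at hp
    rcases List.mem_append.1 hp with hp | hp
    · exact (h.len p hp).trans (Nat.le_succ n)
    · obtain ⟨q, hq, a, -, rfl⟩ := hnew p hp
      have := h.len q hq
      simp only [List.length_cons]
      omega
  · intro p hp
    rw [h1] at hp
    rcases List.mem_append.1 hp with hp | hp
    · exact h.sub p hp
    · obtain ⟨q, hq, a, ha, rfl⟩ := hnew p hp
      intro b hb
      rcases List.mem_cons.1 hb with rfl | hb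
      · exact ha
      · exact h.sub q hq b hb
  · rw [h1, List.map_append]
    exact List.mem_append_left _ h.start
  · intro x hx a ha
    rw [List.mem_map] at hx
    obtain ⟨p, hp, rfl⟩ := hx
    exact h3 (g a p.1, a :: p.2) (List.mem_flatMap.2 ⟨p, hp, List.mem_map.2 ⟨a, ha, rfl⟩⟩)

theorem wtab_inv (S : List A) (x0 : X) (n : ℕ) : WInv g S x0 n (wtab g S x0 n) := by
  induction n with
  | zero =>
    exact ⟨by simp [wtab], by simp [wtab, wact], by simp [wtab], by simp [wtab], by simp [wtab]⟩
  | succ n ih =>
    unfold wtab at ih ⊢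
    rw [Function.iterate_succ_apply']
    exact (ih.round g).1

/-- After sufficiently many rounds the table is closed. -/
theorem wtab_closed [Fintype X] (S : List A) (x0 : X) (n : ℕ) (hn : Fintype.card X ≤ n) :
    ∀ x ∈ (wtab g S x0 n).map Prod.fst, ∀ a ∈ S, g a x ∈ (wtab g S x0 n).map Prod.fst := by
  have hstep : ∀ k, wtab g S x0 (k + 1) = wround g S (wtab g S x0 k) := by
    intro k
    unfold wtab
    rw [Function.iterate_succ_apply']
  have hle : ∀ k, (wtab g S x0 k).length ≤ Fintype.card X := by
    intro k
    have := (wtab_inv g S x0 k).nodup.length_le_card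
    rwa [List.length_map] at this
  -- some round adds nothing
  have h1 : ∃ k ≤ n, wtab g S x0 (k + 1) = wtab g S x0 k := by
    by_contra hcon
    push Not at hcon
    have h2 : ∀ k ≤ n + 1, k < (wtab g S x0 k).length := by
      intro k
      induction k with
      | zero => intro _; simp [wtab]
      | succ k ih =>
        intro hk
        have h3 := ih (by omega)
        obtain ⟨-, ⟨T', h4⟩, -⟩ := (wtab_inv g S x0 k).round g
        rw [← hstep] at h4
        have h5 : T' ≠ [] := by
          rintro rfl
          rw [List.append_nil] at h4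
          exact hcon k (by omega) h4
        have h6 : 0 < T'.length := List.length_pos_iff.2 h5
        rw [h4, List.length_append]
        omega
    have h3 := h2 (n + 1) le_rfl
    have h4 := hle (n + 1)
    omega
  obtain ⟨k, hk, hk'⟩ := h1
  have h2 : ∀ j, wtab g S x0 (k + j) = wtab g S x0 k := by
    intro j
    induction j with
    | zero => rfl
    | succ j ih => rw [← add_assoc, hstep, ih, ← hstep, hk']
  have h3 : wtab g S x0 n = wtab g S x0 k := by
    have := h2 (n - k)
    rwa [Nat.add_sub_cancel' hk] at this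
  rw [h3]
  intro x hx a ha
  have := ((wtab_inv g S x0 k).round g).2.2 x hx a ha
  rwa [← hstep, hk'] at this

/-- Every point which can be reached is in the table. -/
theorem mem_wtab [Fintype X] (S : List A) (x0 : X) (n : ℕ) (hn : Fintype.card X ≤ n) (x : X)
    (hx : ∀ Y : Set X, x0 ∈ Y → (∀ y ∈ Y, ∀ a ∈ S, g a y ∈ Y) → x ∈ Y) :
    x ∈ (wtab g S x0 n).map Prod.fst := by
  apply hx {x | x ∈ (wtab g S x0 n).map Prod.fst} (wtab_inv g S x0 n).start
  intro y hy a ha
  exact wtab_closed g S x0 n hn y hy a ha

end Tab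

/-! ### Elementary matrices -/

section Tv

variable {K : Type*} [Field K]

/-- elementary matrices -/
def tvM {i j : Fin 3} (h : i ≠ j) (r : K) : Matrix.SpecialLinearGroup (Fin 3) K :=
  ⟨Matrix.transvection i j r, Matrix.det_transvection_of_ne i j h r⟩

/-- elementary matrices (the identity if `i = j`) -/
def tv (i j : Fin 3) (r : K) : Matrix.SpecialLinearGroup (Fin 3) K :=
  if h : i ≠ j then tvM h r else 1

theorem tv_coe {i j : Fin 3} (h : i ≠ j) (r : K) :
    (tv i j r : Matrix (Fin 3) (Fin 3) K) = Matrix.transvection i j r := by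
  unfold tv
  rw [dif_pos h]
  rfl

theorem tv_self (i : Fin 3) (r : K) : tv i i r = 1 := by
  unfold tv
  rw [dif_neg (by simp)]

theorem tv_zero (i j : Fin 3) : tv i j (0 : K) = 1 := by
  by_cases h : i ≠ j
  · apply Subtype.ext
    rw [tv_coe h]
    simp
  · push Not at h
    rw [h, tv_self]

theorem tv_add (i j : Fin 3) (r s : K) : tv i j (r + s) = tv i j r * tv i j s := by
  by_cases h : i ≠ j
  · apply Subtype.ext
    rw [tv_coe h, Matrix.SpecialLinearGroup.coe_mul, tv_coe h, tv_coe h,
      Matrix.transvection_mul_transvection_same i j h]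
  · push Not at h
    rw [h, tv_self, tv_self, tv_self, one_mul]

theorem tv_neg (i j : Fin 3) (r : K) : tv i j (-r) = (tv i j r)⁻¹ := by
  rw [eq_inv_iff_mul_eq_one, ← tv_add, neg_add_cancel, tv_zero]

/-- the generators are involutions in characteristic two -/
theorem tv_mul_self [CharP K 2] (i j : Fin 3) (r : K) : tv i j r * tv i j r = 1 := by
  rw [← tv_add, CharTwo.add_self_eq_zero, tv_zero]

theorem tv_mulVec {i j : Fin 3} (h : i ≠ j) (r : K) (u : Fin 3 → K) :
    (tv i j r).1.mulVec u = Function.update u i (u i + r * u j) := by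
  rw [tv_coe h]
  funext k
  rw [Matrix.transvection, Matrix.add_mulVec, Matrix.one_mulVec, Pi.add_apply]
  by_cases hk : k = i
  · subst hk
    rw [Function.update_self]
    simp [Matrix.mulVec, dotProduct, Matrix.single_apply]
  · rw [Function.update_of_ne hk]
    simp [Matrix.mulVec, dotProduct, Ne.symm hk]

/-- commutators of elementary matrices -/
theorem tv_comm {i j k : Fin 3} (hij : i ≠ j) (hik : i ≠ k) (hkj : k ≠ j) (a b : K) :
    tv i k a * tv k j b * (tv i k a)⁻¹ * (tv k j b)⁻¹ = tv i j (a * b) := by
  rw [← tv_neg, ← tv_neg]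
  apply Subtype.ext
  simp only [Matrix.SpecialLinearGroup.coe_mul]
  rw [tv_coe hik, tv_coe hkj, tv_coe hik, tv_coe hkj, tv_coe hij]
  unfold Matrix.transvection
  have h1 : Matrix.single i k a * Matrix.single k j b = Matrix.single i j (a * b) := by
    rw [Matrix.single_mul_single_same]
  have h2 : Matrix.single k j b * Matrix.single i k a = 0 := by
    rw [Matrix.single_mul_single_of_ne _ _ _ _ hij.symm]
  have h3 : Matrix.single i k a * Matrix.single i k a = 0 := by
    rw [Matrix.single_mul_single_of_ne _ _ _ _ hik.symm]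
  have h4 : Matrix.single k j b * Matrix.single k j b = 0 := by
    rw [Matrix.single_mul_single_of_ne _ _ _ _ hkj.symm]
  have h5 : Matrix.single i j (a * b) * Matrix.single i k a = 0 := by
    rw [Matrix.single_mul_single_of_ne _ _ _ _ hij.symm]
  have h6 : Matrix.single i j (a * b) * Matrix.single k j b = 0 := by
    rw [Matrix.single_mul_single_of_ne _ _ _ _ hkj.symm]
  have n1 : Matrix.single i k (-a) = - Matrix.single i k a := by
    ext x y; simp [Matrix.single_apply]; split_ifs <;> simp
  have n2 : Matrix.single k j (-b) = - Matrix.single k j b := by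
    ext x y; simp [Matrix.single_apply]; split_ifs <;> simp
  rw [n1, n2]
  generalize Matrix.single i k a = E at *
  generalize Matrix.single k j b = F at *
  generalize Matrix.single i j (a * b) = G at *
  have e1 : (1 + E) * (1 + F) = 1 + E + F + G := by
    rw [← h1]; noncomm_ring
  rw [e1]
  have e2 : (1 + E + F + G) * (1 + -E) = 1 + F + G := by
    have : (1 + E + F + G) * (1 + -E) = 1 + F + G - E * E - F * E - G * E := by noncomm_ring
    rw [this, h3, h2, h5]; simp
  rw [e2]
  have : (1 + F + G) * (1 + -F) = 1 + G - F * F - G * F := by noncomm_ring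
  rw [this, h4, h6]; simp

/-- `K` is generated by `θ` as a ring. -/
def GenBy (θ : K) : Prop := ∀ A : AddSubgroup K, 1 ∈ A → (∀ x ∈ A, θ * x ∈ A) → A = ⊤

/-- The elementary matrices with the entries `1`, `θ` generate all elementary matrices. -/
theorem tv_mem {θ : K} (hθ : GenBy θ) (H : Subgroup (Matrix.SpecialLinearGroup (Fin 3) K))
    (h1 : ∀ i j, i ≠ j → tv i j 1 ∈ H) (h2 : ∀ i j, i ≠ j → tv i j θ ∈ H) (i j : Fin 3) (r : K) :
    tv i j r ∈ H := by
  let A : AddSubgroup K :=
    { carrier := {r | ∀ i j, i ≠ j → tv i j r ∈ H}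
      zero_mem' := fun i j _ => by rw [tv_zero]; exact H.one_mem
      add_mem' := fun {r s} hr hs i j hij => by
        rw [tv_add]; exact H.mul_mem (hr i j hij) (hs i j hij)
      neg_mem' := fun {r} hr i j hij => by
        rw [tv_neg]; exact H.inv_mem (hr i j hij) }
  have hA : A = ⊤ := by
    apply hθ A h1
    intro x hx i j hij
    obtain ⟨k, hik, hkj⟩ : ∃ k : Fin 3, i ≠ k ∧ k ≠ j := by
      revert i j
      decide
    rw [← tv_comm hij hik hkj]
    exact H.mul_mem (H.mul_mem (H.mul_mem (h2 i k hik) (hx k j hkj)) (H.inv_mem (h2 i k hik)))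
      (H.inv_mem (hx k j hkj))
  by_cases hij : i ≠ j
  · have : r ∈ A := by rw [hA]; exact AddSubgroup.mem_top r
    exact this i j hij
  · push Not at hij
    rw [hij, tv_self]
    exact H.one_mem

/-- All vectors `≠ 0` are reached from `e₁` by elementary matrices. -/
theorem reach_tv (Y : Set (Fin 3 → K)) (h0 : e1 K ∈ Y)
    (hY : ∀ y ∈ Y, ∀ i j r, (tv i j r).1.mulVec y ∈ Y) {u : Fin 3 → K} (hu : u ≠ 0) : u ∈ Y := by
  have st : ∀ y ∈ Y, ∀ i j, i ≠ j → ∀ r, Function.update y i (y i + r * y j) ∈ Y := by
    intro y hy i j hij r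
    rw [← tv_mulVec hij]
    exact hY y hy i j r
  have e0 : (![1, 0, 0] : Fin 3 → K) ∈ Y := by
    have : (![1, 0, 0] : Fin 3 → K) = e1 K := by
      funext i
      fin_cases i <;> simp [e1]
    rw [this]
    exact h0
  have hu' : u = ![u 0, u 1, u 2] := by
    funext i
    fin_cases i <;> rfl
  by_cases hb : u 1 = 0
  · by_cases hc : u 2 = 0
    · have ha : u 0 ≠ 0 := by
        intro ha
        apply hu
        funext i
        fin_cases i <;> assumption
      have s1 := st _ e0 1 0 (by decide) 1
      have s2 := st _ s1 0 1 (by decide) (u 0 - 1)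
      have s3 := st _ s2 1 0 (by decide) (-(u 0)⁻¹)
      rw [hu']
      convert s3 using 1
      funext i
      fin_cases i
      · simp
      · simp [ha, hb]
      · simp [hc]
    · have s1 := st _ e0 2 0 (by decide) (u 2)
      have s2 := st _ s1 0 2 (by decide) ((u 0 - 1) / u 2)
      rw [hu']
      convert s2 using 1
      funext i
      fin_cases i
      · simp [hc]
      · simp [hb]
      · simp
  · have s1 := st _ e0 1 0 (by decide) (u 1)
    have s2 := st _ s1 0 1 (by decide) ((u 0 - 1) / u 1)
    have s3 := st _ s2 2 1 (by decide) (u 2 / u 1)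
    rw [hu']
    convert s3 using 1
    funext i
    fin_cases i
    · simp [hb]
    · simp
    · simp [hb]

/-- the letters: entries `1` (`false`) and `θ` (`true`) -/
abbrev Ltr : Type := Fin 3 × Fin 3 × Bool

/-- the generator with the name `a` -/
def lg (θ : K) (a : Ltr) : Matrix.SpecialLinearGroup (Fin 3) K :=
  tv a.1 a.2.1 (if a.2.2 = true then θ else 1)

/-- the twelve letters -/
def ltrs : List Ltr :=
  (List.finRange 3).flatMap fun i => (List.finRange 3).flatMap fun j =>
    if i = j then [] else [(i, j, false), (i, j, true)]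

theorem mem_ltrs (a : Ltr) : a ∈ ltrs ↔ a.1 ≠ a.2.1 := by
  revert a
  decide

/-- the action of the letters on vectors -/
def lact (θ : K) (a : Ltr) (u : Fin 3 → K) : Fin 3 → K := (lg θ a).1.mulVec u

theorem lact_eq (θ : K) {a : Ltr} (ha : a.1 ≠ a.2.1) (u : Fin 3 → K) :
    lact θ a u = Function.update u a.1 (u a.1 + (if a.2.2 = true then θ else 1) * u a.2.1) :=
  tv_mulVec ha _ _

/-- Words of letters as elements of the group. -/
def wg (θ : K) (w : List Ltr) : Matrix.SpecialLinearGroup (Fin 3) K := (w.map (lg θ)).prod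

theorem wact_lact (θ : K) (w : List Ltr) (u : Fin 3 → K) :
    wact (lact θ) w u = (wg θ w).1.mulVec u := by
  induction w with
  | nil => simp [wact, wg]
  | cons a w ih =>
    rw [wact_cons, ih]
    unfold wg lact
    rw [List.map_cons, List.prod_cons, Matrix.SpecialLinearGroup.coe_mul, Matrix.mulVec_mulVec]

/-- Every vector `≠ 0` is in the table. -/
theorem mem_wtab_lact [Fintype K] [DecidableEq K] {θ : K} (hθ : GenBy θ) (n : ℕ)
    (hn : Fintype.card (Fin 3 → K) ≤ n) {u : Fin 3 → K} (hu : u ≠ 0) :
    u ∈ (wtab (lact θ) ltrs (e1 K) n).map Prod.fst := by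
  classical
  apply mem_wtab (lact θ) ltrs (e1 K) n hn
  intro Y h0 hY
  -- `Y` is invariant under the group generated by the letters
  let H : Subgroup (Matrix.SpecialLinearGroup (Fin 3) K) :=
    { carrier := {g | ∀ y, g.1.mulVec y ∈ Y ↔ y ∈ Y}
      one_mem' := fun y => by simp
      mul_mem' := fun {g h} hg hh y => by
        rw [Matrix.SpecialLinearGroup.coe_mul, ← Matrix.mulVec_mulVec, hg, hh]
      inv_mem' := fun {g} hg y => by
        rw [← hg, Matrix.mulVec_mulVec, ← Matrix.SpecialLinearGroup.coe_mul, mul_inv_cancel]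
        simp }
  have hfin : ∀ g : Matrix.SpecialLinearGroup (Fin 3) K, (∀ y ∈ Y, g.1.mulVec y ∈ Y) → g ∈ H := by
    intro g hg y
    refine ⟨fun h => ?_, hg y⟩
    have hinj : Function.Injective (fun y : Fin 3 → K => g.1.mulVec y) := by
      intro a b hab
      have h1 := congrArg (fun z => (g⁻¹ : Matrix.SpecialLinearGroup (Fin 3) K).1.mulVec z) hab
      simp only [Matrix.mulVec_mulVec] at h1
      rw [← Matrix.SpecialLinearGroup.coe_mul, inv_mul_cancel, Matrix.SpecialLinearGroup.coe_one,
        Matrix.one_mulVec, Matrix.one_mulVec] at h1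
      exact h1
    have hm : Set.MapsTo (fun y : Fin 3 → K => g.1.mulVec y) Y Y := hg
    have hs : Function.Surjective (hm.restrict _ Y Y) := by
      apply Finite.surjective_of_injective
      exact (Set.MapsTo.restrict_inj hm).2 hinj.injOn
    obtain ⟨z, hz⟩ := hs ⟨_, h⟩
    have h2 : g.1.mulVec z.1 = g.1.mulVec y := congrArg Subtype.val hz
    rw [← hinj h2]
    exact z.2
  have hall : ∀ i j r, tv i j r ∈ H := by
    intro i j r
    apply tv_mem hθ H
    · intro i j hij
      exact hfin _ fun y hy => hY y hy (i, j, false) ((mem_ltrs _).2 hij)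
    · intro i j hij
      exact hfin _ fun y hy => hY y hy (i, j, true) ((mem_ltrs _).2 hij)
  exact reach_tv Y h0 (fun y hy i j r => (hall i j r y).2 hy) hu

end Tv

end Vale.Agent.P330.H675
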