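import Vale.Agent.P330.H675.Greedy
import Vale.Agent.P330.H675.Words
import Vale.Agent.P330.S.NumPT
import Vale.Agent.Lib.PolyTime.Lists3

/-!
# P330, block GRP: greedy choice and tables of words in polynomial time

The elements of the group `J` are given by keys: `key (x + y) = key x ^^^ key y`.
-/

namespace Vale.Agent.P330.H675

open Vale.Agent.Lib.PolyTime

/-! ### Greedy choice -/

section NG

variable {C : Type*} (k : C → ℕ)

/-- One step of the greedy choice, on keys. -/
def ngstep (s : List ℕ × List C) (c : C) : List ℕ × List C :=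
  if k c ∈ s.1 then s else (s.1 ++ s.1.map (fun x => x ^^^ k c), s.2 ++ [c])

theorem ngreedy_eq {J : Type*} [AddCommGroup J] [DecidableEq J] {v : C → J} {key : J → ℕ}
    (hinj : Function.Injective key) (hadd : ∀ x y, key (x + y) = key x ^^^ key y)
    (L : List C) : L.foldl (ngstep fun c => key (v c)) ([0], []) =
      ((greedy v L).1.map key, (greedy v L).2) := by
  have h0 : key 0 = 0 := by
    have h := hadd 0 0
    rw [add_zero, Nat.xor_self] at h
    exact h
  have step : ∀ (s : List J × List C) (c : C), ngstep (fun c => key (v c)) (s.1.map key, s.2) c =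
      ((gstep v s c).1.map key, (gstep v s c).2) := by
    intro s c
    unfold ngstep gstep
    have e : key (v c) ∈ s.1.map key ↔ v c ∈ s.1 := by
      rw [List.mem_map]
      constructor
      · rintro ⟨a, ha, h⟩
        rwa [← hinj h]
      · intro h
        exact ⟨_, h, rfl⟩
    by_cases hc : v c ∈ s.1
    · rw [if_pos hc, if_pos (e.2 hc)]
    · rw [if_neg hc, if_neg (fun h => hc (e.1 h))]
      simp only [List.map_append, List.map_map, Function.comp_def, hadd]
  have gen : ∀ (L : List C) (s : List J × List C),
      L.foldl (ngstep fun c => key (v c)) (s.1.map key, s.2) =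
      ((L.foldl (gstep v) s).1.map key, (L.foldl (gstep v) s).2) := by
    intro L
    induction L with
    | nil => intro s; rfl
    | cons c L ih => intro s; rw [List.foldl_cons, List.foldl_cons, step, ih]
  have := gen L ([0], [])
  simp only [List.map_cons, List.map_nil, h0] at this
  exact this

theorem greedy_sublist {J : Type*} [AddCommGroup J] [DecidableEq J] (v : C → J) (L : List C) :
    (greedy v L).2.Sublist L := by
  have gen : ∀ (L : List C) (s : List J × List C), ∃ L', (L.foldl (gstep v) s).2 = s.2 ++ L' ∧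
      L'.Sublist L := by
    intro L
    induction L with
    | nil => intro s; exact ⟨[], by simp, List.Sublist.refl _⟩
    | cons c L ih =>
      intro s
      obtain ⟨L', h1, h2⟩ := ih (gstep v s c)
      rw [List.foldl_cons]
      by_cases hc : v c ∈ s.1
      · refine ⟨L', ?_, h2.cons c⟩
        rw [h1]
        unfold gstep
        rw [if_pos hc]
      · refine ⟨c :: L', ?_, h2.cons_cons c⟩
        rw [h1]
        unfold gstep
        rw [if_neg hc]
        simp
  obtain ⟨L', h1, h2⟩ := gen L ([0], [])
  unfold greedy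
  rw [h1]
  simpa using h2

end NG

section PTG

variable {A : Set Word} {α C : Type*} [Enc α] [Enc C]

theorem PT_ngstep {k : α → C → ℕ} (hk : PT A (fun p : α × C => k p.1 p.2)) :
    PT A (fun p : α × (List ℕ × List C) × C => ngstep (k p.1) p.2.1 p.2.2) := by
  have hkc : PT A (fun p : α × (List ℕ × List C) × C => k p.1 p.2.2) :=
    hk.comp (PT.fst'.pair PT.snd'.snd)
  have hs1 : PT A (fun p : α × (List ℕ × List C) × C => p.2.1.1) := PT.snd'.fst.fst
  have hs2 : PT A (fun p : α × (List ℕ × List C) × C => p.2.1.2) := PT.snd'.fst.snd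
  have hmap : PT A (fun p : α × (List ℕ × List C) × C => p.2.1.1.map (fun x => x ^^^ k p.1 p.2.2)) :=
    PT.map (f := fun (p : α × (List ℕ × List C) × C) x => x ^^^ k p.1 p.2.2) hs1
      (PT.natXor PT.snd' (hkc.comp PT.fst'))
  unfold ngstep
  exact PT.ite (PT.mem hs1 hkc) PT.snd'.fst
    ((hs1.append hmap).pair (hs2.append (PT.cons PT.snd'.snd (PT.const []))))

theorem PT_greedy {J : α → Type*} [∀ a, AddCommGroup (J a)] [∀ a, DecidableEq (J a)]
    [∀ a, Fintype (J a)] (hJ : ∀ a, ∀ x : J a, x + x = 0) {v : ∀ a, C → J a}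
    {key : ∀ a, J a → ℕ} (hinj : ∀ a, Function.Injective (key a))
    (hadd : ∀ a x y, key a (x + y) = key a x ^^^ key a y) {L : α → List C} (hL : PT A L)
    (hk : PT A (fun p : α × C => key p.1 (v p.1 p.2))) (hc : PBd (fun a => Fintype.card (J a)))
    {B : α → ℕ} (hB : PBd B) (hlt : ∀ a x, key a x < 2 ^ B a) :
    PT A (fun a => ((greedy (v a) (L a)).1.map (key a), (greedy (v a) (L a)).2)) := by
  have hb : PBd (fun a => 2 * (Fintype.card (J a) * (2 * B a + 1)) + esize (L a) + 1) := by
    have := hL.pbd
    fun_prop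
  refine (PT.foldl (l := L) (init := fun _ => (([0], []) : List ℕ × List C))
    (f := fun a s c => ngstep (fun c => key a (v a c)) s c) hL (PT.const _)
    (PT_ngstep (k := fun a c => key a (v a c)) hk) hb fun a i => ?_).congr fun a => ?_
  · have e := ngreedy_eq (v := v a) (hinj a) (hadd a) ((L a).take i)
    rw [show (fun s c => ngstep (fun c => key a (v a c)) s c) = ngstep fun c => key a (v a c)
      from rfl, e, esize_pair]
    have h1 : ((greedy (v a) ((L a).take i)).1.map (key a)).length ≤ Fintype.card (J a) := by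
      rw [List.length_map]
      exact (greedy_spec (hJ a) (v a) ((L a).take i)).1.nodup.length_le_card
    have h2 : esize ((greedy (v a) ((L a).take i)).1.map (key a)) ≤
        ((greedy (v a) ((L a).take i)).1.map (key a)).length * (2 * B a + 1) := by
      apply esize_list_le
      intro x hx
      obtain ⟨y, -, rfl⟩ := List.mem_map.1 hx
      exact esize_nat_le (hlt a y)
    have h3 : esize (greedy (v a) ((L a).take i)).2 ≤ esize (L a) :=
      esize_le_of_sublist ((greedy_sublist (v a) _).trans (List.take_sublist _ _))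
    have h4 := Nat.mul_le_mul_right (2 * B a + 1) h1
    omega
  · exact ngreedy_eq (hinj a) (hadd a) (L a)

theorem PT_idxOf {l : α → List ℕ} {x : α → ℕ} (hl : PT A l) (hx : PT A x) :
    PT A (fun a => (l a).idxOf (x a)) := by
  have key : ∀ (l : List ℕ) (x : ℕ), (l.takeWhile fun y => decide (y ≠ x)).length = l.idxOf x := by
    intro l x
    induction l with
    | nil => rfl
    | cons y l ih =>
      by_cases h : y = x
      · subst h
        simp
      · rw [List.idxOf_cons_ne _ h, List.takeWhile_cons, if_pos (by simpa using h),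
          List.length_cons, ih]
  refine (PT.length (PT.takeWhile (f := fun a y => decide (y ≠ x a)) hl ?_)).congr fun a =>
    key _ _
  exact PT.decide_not (PT.eqNat PT.snd' (hx.comp PT.fst'))

end PTG

/-! ### Tables of words -/

section Tab

variable {X Y Z : Type*} [DecidableEq X] [DecidableEq Y] (f : X → Y)

theorem wins_map (hf : Function.Injective f) (T : List (X × List Z)) (p : X × List Z) :
    wins (T.map fun p => (f p.1, p.2)) (f p.1, p.2) = (wins T p).map fun p => (f p.1, p.2) := by
  unfold wins
  have e : f p.1 ∈ (T.map fun p => (f p.1, p.2)).map Prod.fst ↔ p.1 ∈ T.map Prod.fst := by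
    simp only [List.map_map, List.mem_map, Function.comp_apply]
    constructor
    · rintro ⟨a, ha, h⟩
      exact ⟨a, ha, hf h⟩
    · rintro ⟨a, ha, h⟩
      exact ⟨a, ha, by rw [h]⟩
  by_cases h : p.1 ∈ T.map Prod.fst
  · rw [if_pos h, if_pos (e.2 h)]
  · rw [if_neg h, if_neg (fun h' => h (e.1 h'))]
    simp

theorem wfold_map (hf : Function.Injective f) (L T : List (X × List Z)) :
    (L.map fun p => (f p.1, p.2)).foldl wins (T.map fun p => (f p.1, p.2)) =
      (L.foldl wins T).map fun p => (f p.1, p.2) := by
  induction L generalizing T with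
  | nil => rfl
  | cons p L ih => rw [List.map_cons, List.foldl_cons, wins_map f hf, ih, List.foldl_cons]

theorem wround_map (hf : Function.Injective f) {g : Z → X → X} {g' : Z → Y → Y} (S : List Z)
    (h : ∀ a ∈ S, ∀ x, g' a (f x) = f (g a x)) (T : List (X × List Z)) :
    wround g' S (T.map fun p => (f p.1, p.2)) = (wround g S T).map fun p => (f p.1, p.2) := by
  unfold wround
  rw [← wfold_map f hf]
  congr 1
  rw [List.map_flatMap, List.flatMap_map]
  apply List.flatMap_congr
  intro p _
  rw [List.map_map]
  apply List.map_congr_left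
  intro a ha
  simp [h a ha]

theorem wtab_map (hf : Function.Injective f) {g : Z → X → X} {g' : Z → Y → Y} (S : List Z)
    (h : ∀ a ∈ S, ∀ x, g' a (f x) = f (g a x)) (x0 : X) (n : ℕ) :
    wtab g' S (f x0) n = (wtab g S x0 n).map fun p => (f p.1, p.2) := by
  unfold wtab
  induction n with
  | zero => rfl
  | succ n ih => rw [Function.iterate_succ_apply', ih, wround_map f hf S h,
      Function.iterate_succ_apply']

end Tab

section PTW

variable {A : Set Word} {α : Type*} [Enc α]

/-- A bound for the sizes of tables. -/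
theorem esize_tab_le {T : List (ℕ × List ℕ)} {P n m : ℕ} (hn : (T.map Prod.fst).Nodup)
    (hP : ∀ p ∈ T, p.1 < P) (hl : ∀ p ∈ T, p.2.length ≤ n) (hm : ∀ p ∈ T, ∀ a ∈ p.2, a < m) :
    esize T ≤ P * (2 * (2 * P + n * (2 * m + 1) + 1) + 1) := by
  have h1 : T.length ≤ P := by
    have h2 : (T.map Prod.fst).length ≤ (Finset.range P).card := by
      rw [← List.toFinset_card_of_nodup hn]
      apply Finset.card_le_card
      intro x hx
      rw [List.mem_toFinset, List.mem_map] at hx
      obtain ⟨p, hp, rfl⟩ := hx
      exact Finset.mem_range.2 (hP p hp)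
    rwa [List.length_map, Finset.card_range] at h2
  refine (esize_list_le (B := 2 * P + n * (2 * m + 1) + 1) fun p hp => ?_).trans
    (Nat.mul_le_mul_right _ h1)
  have h3 : esize p.1 ≤ P := (esize_nat_le_self _).trans (hP p hp).le
  have h4 : esize p.2 ≤ n * (2 * m + 1) :=
    (esize_list_le (B := m) fun a ha => (esize_nat_le_self _).trans (hm p hp a ha).le).trans
      (Nat.mul_le_mul_right _ (hl p hp))
  have h5 : esize p = 2 * esize p.1 + esize p.2 + 1 := by rw [← esize_pair]
  omega

variable {g : α → ℕ → ℕ → ℕ} {P : α → ℕ}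

/-- Insertions add at most the size of the inserted elements. -/
theorem esize_wins_le (L T : List (ℕ × List ℕ)) :
    esize (L.foldl wins T) ≤ esize T + esize L := by
  induction L generalizing T with
  | nil => simp [esize_list_nil]
  | cons p L ih =>
    rw [List.foldl_cons, esize_list_cons]
    refine (ih _).trans ?_
    have h : esize (wins T p) ≤ esize T + (2 * esize p + 1) := by
      unfold wins
      split_ifs
      · omega
      · rw [esize_append, esize_list_cons, esize_list_nil]
    omega

theorem PT_wins : PT A (fun q : α × List (ℕ × List ℕ) × (ℕ × List ℕ) => wins q.2.1 q.2.2) := by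
  have hT : PT A (fun q : α × List (ℕ × List ℕ) × (ℕ × List ℕ) => q.2.1) := PT.snd'.fst
  have hx : PT A (fun q : α × List (ℕ × List ℕ) × (ℕ × List ℕ) => q.2.2.1) := PT.snd'.snd.fst
  have hm : PT A (fun q : α × List (ℕ × List ℕ) × (ℕ × List ℕ) => q.2.1.map Prod.fst) :=
    PT.map (f := fun (_ : α × List (ℕ × List ℕ) × (ℕ × List ℕ)) (p : ℕ × List ℕ) => p.1) hT
      PT.snd'.fst
  unfold wins
  exact PT.ite (PT.mem hm hx) hT (hT.append (PT.cons PT.snd'.snd (PT.const [])))

/-- **Tables of words in polynomial time.** -/
theorem PT_wtab (m : ℕ) (hg : PT A (fun p : α × ℕ × ℕ => g p.1 p.2.1 p.2.2)) (hP : PBd P)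
    (hgP : ∀ a b x, g a b x < P a) {x0 : α → ℕ} (hx0 : PT A x0) (hx0P : ∀ a, x0 a < P a)
    {n : α → ℕ} (hn : PT A n) (hnb : PBd n) :
    PT A (fun a => wtab (g a) (List.range m) (x0 a) (n a)) := by
  -- the invariant on numbers
  have inv : ∀ a j, ((wtab (g a) (List.range m) (x0 a) j).map Prod.fst).Nodup ∧
      (∀ p ∈ wtab (g a) (List.range m) (x0 a) j, p.1 < P a) ∧
      (∀ p ∈ wtab (g a) (List.range m) (x0 a) j, p.2.length ≤ j) ∧
      (∀ p ∈ wtab (g a) (List.range m) (x0 a) j, ∀ b ∈ p.2, b < m) := by
    intro a j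
    have h := wtab_inv (g a) (List.range m) (x0 a) j
    refine ⟨h.nodup, fun p hp => ?_, h.len, fun p hp b hb => List.mem_range.1 (h.sub p hp b hb)⟩
    rw [← h.act p hp]
    unfold wact
    cases p.2 with
    | nil => exact hx0P a
    | cons b w => exact hgP _ _ _
  -- one round
  have hpairs : PT A (fun q : α × List (ℕ × List ℕ) =>
      q.2.flatMap fun p => (List.range m).map fun b => (g q.1 b p.1, b :: p.2)) := by
    refine PT.flatMap (f := fun (q : α × List (ℕ × List ℕ)) (p : ℕ × List ℕ) =>
      (List.range m).map fun b => (g q.1 b p.1, b :: p.2)) PT.snd' ?_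
    refine PT.map (f := fun (q : (α × List (ℕ × List ℕ)) × (ℕ × List ℕ)) (b : ℕ) =>
      (g q.1.1 b q.2.1, b :: q.2.2)) (PT.const (List.range m)) ?_
    exact (hg.comp (PT.fst'.fst.fst.pair (PT.snd'.pair PT.fst'.snd.fst))).pair
      (PT.cons PT.snd' PT.fst'.snd.snd)
  have hround : PT A (fun q : α × List (ℕ × List ℕ) => wround (g q.1) (List.range m) q.2) := by
    unfold wround
    refine PT.foldl (l := fun q : α × List (ℕ × List ℕ) =>
      q.2.flatMap fun p => (List.range m).map fun b => (g q.1 b p.1, b :: p.2))
      (init := fun q => q.2) (f := fun _ T p => wins T p) hpairs PT.snd' PT_wins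
      (b := fun q => esize q.2 + esize (q.2.flatMap fun p => (List.range m).map fun b =>
        (g q.1 b p.1, b :: p.2))) ((PT.pbd (A := A) PT.snd').add hpairs.pbd) fun q i => ?_
    refine (esize_wins_le _ _).trans ?_
    have := esize_take_le i (q.2.flatMap fun p => (List.range m).map fun b =>
      (g q.1 b p.1, b :: p.2))
    omega
  have hb : PBd (fun a => P a * (2 * (2 * P a + n a * (2 * m + 1) + 1) + 1)) := by fun_prop
  unfold wtab
  refine PT.iterate' (step := fun a T => wround (g a) (List.range m) T) hn hnb
    (PT.cons (hx0.pair (PT.const [])) (PT.const [])) hround hb fun a j hj => ?_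
  obtain ⟨h1, h2, h3, h4⟩ := inv a j
  exact esize_tab_le h1 h2 (fun p hp => (h3 p hp).trans hj) h4

end PTW

end Vale.Agent.P330.H675
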